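import Vale.Agent.P073.PW86.LM2
import Vale.Agent.P073.W865.Final
import Mathlib.Analysis.LocallyConvex.SeparatingDual
import Mathlib.Analysis.Complex.Basic

/-!
# P073, block G1: the modified map near one crossing point

`f : Ω → Λ` is a homeomorphism with inverse `h`; near `y ∈ F` the surface `F` is a coordinate
plane, near `h y` the 1-skeleton `K1` is a line, and the coordinate of `f` normal to `F` changes
sign at `h y` along this line.
-/

open Set Metric Topology Complex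
open scoped ComplexConjugate

namespace P073.PW86

/-- complex coordinates in a coordinate plane -/
noncomputable def cpt (y : Fin 3 → ℝ) (i j : Fin 3) (z : Fin 3 → ℝ) : ℂ := ⟨z i - y i, z j - y j⟩

theorem continuous_cpt (y : Fin 3 → ℝ) (i j : Fin 3) : Continuous (cpt y i j) := by
  have : cpt y i j = fun z => ((z i - y i : ℝ) : ℂ) + ((z j - y j : ℝ) : ℂ) * I := by
    funext z
    apply Complex.ext <;> simp [cpt]
  rw [this]
  fun_prop

theorem cpt_pt {i j : Fin 3} (hij : i ≠ j) (y : Fin 3 → ℝ) (v : ℂ) :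
    cpt y i j (pt y i j v) = v := by
  apply Complex.ext
  · simp [cpt, pt]
  · simp [cpt, pt, hij.symm]

theorem cases3 {n i j : Fin 3} (hij : i ≠ j) (hni : n ≠ i) (hnj : n ≠ j) (c : Fin 3) :
    c = i ∨ c = j ∨ c = n := by
  fin_cases i <;> fin_cases j <;> fin_cases n <;> fin_cases c <;> simp_all

theorem pt_cpt {n i j : Fin 3} (hij : i ≠ j) (hni : n ≠ i) (hnj : n ≠ j) {y z : Fin 3 → ℝ}
    (hz : z n = y n) : pt y i j (cpt y i j z) = z := by
  funext c
  rcases cases3 hij hni hnj c with rfl | rfl | rfl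
  · simp [cpt, pt]
  · simp [cpt, pt, hij.symm]
  · simp [pt, hni, hnj, hz]

theorem pt_n {n i j : Fin 3} (hni : n ≠ i) (hnj : n ≠ j) (y : Fin 3 → ℝ) (v : ℂ) :
    pt y i j v n = y n := by simp [pt, hni, hnj]

theorem sn_cpt_le (y : Fin 3 → ℝ) (i j : Fin 3) (z : Fin 3 → ℝ) : sn (cpt y i j z) ≤ ‖z - y‖ := by
  apply max_le
  · simpa [cpt, Real.norm_eq_abs] using norm_le_pi_norm (z - y) i
  · simpa [cpt, Real.norm_eq_abs] using norm_le_pi_norm (z - y) j

theorem norm_le_sn_cpt {n i j : Fin 3} (hij : i ≠ j) (hni : n ≠ i) (hnj : n ≠ j)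
    {y z : Fin 3 → ℝ} (hz : z n = y n) : ‖z - y‖ ≤ sn (cpt y i j z) := by
  rw [pi_norm_le_iff_of_nonneg (sn_nonneg _)]
  intro c
  rcases cases3 hij hni hnj c with rfl | rfl | rfl
  · exact le_max_left _ _
  · exact le_max_right _ _
  · rw [Pi.sub_apply, hz, sub_self, norm_zero]; exact sn_nonneg _

theorem norm_pt_sub {n i j : Fin 3} (hij : i ≠ j) (hni : n ≠ i) (hnj : n ≠ j)
    (y : Fin 3 → ℝ) (v : ℂ) : ‖pt y i j v - y‖ ≤ ‖v‖ := by
  have := norm_le_sn_cpt hij hni hnj (y := y) (z := pt y i j v) (pt_n hni hnj y v)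
  rw [cpt_pt hij] at this
  exact this.trans (sn_le_norm v)

theorem exists_T {e : Fin 3 → ℝ} (he : e ≠ 0) :
    ∃ T : (Fin 3 → ℝ) ≃L[ℝ] (ℂ × ℝ), T e = (0, 1) := by
  have hfr : Module.finrank ℝ (Fin 3 → ℝ) = Module.finrank ℝ (ℂ × ℝ) := by
    rw [Module.finrank_prod, Complex.finrank_real_complex]; simp
  set T0 : (Fin 3 → ℝ) ≃L[ℝ] (ℂ × ℝ) := ContinuousLinearEquiv.ofFinrankEq hfr
  have h1 : T0 e ≠ 0 := by
    intro h; exact he (T0.map_eq_zero_iff.1 h)
  obtain ⟨A, hA⟩ := SeparatingDual.exists_continuousLinearEquiv_apply_eq (R := ℝ) h1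
    (show ((0, 1) : ℂ × ℝ) ≠ 0 by simp)
  exact ⟨T0.trans A, hA⟩

/-- **The modified map near one crossing point.** -/
theorem local_map {f h : (Fin 3 → ℝ) → Fin 3 → ℝ} {Ω Λ : Set (Fin 3 → ℝ)} (hΩ : IsOpen Ω)
    (hf : ContinuousOn f Ω) (hh : ContinuousOn h Λ) (hfh : ∀ x ∈ Ω, f x ∈ Λ ∧ h (f x) = x)
    (hhf : ∀ y ∈ Λ, h y ∈ Ω ∧ f (h y) = y) {F K1 : Set (Fin 3 → ℝ)} (hF : F ⊆ Λ)
    {y : Fin 3 → ℝ} (hy : y ∈ F) {n i j : Fin 3} (hij : i ≠ j) (hni : n ≠ i) (hnj : n ≠ j)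
    (hplane : ∃ s > 0, ∀ z, ‖z - y‖ ≤ s → (z ∈ F ↔ z n = y n)) {e : Fin 3 → ℝ} (he : e ≠ 0)
    (haxis : ∃ s > 0, ∀ x, ‖x - h y‖ ≤ s → (x ∈ K1 ↔ ∃ t : ℝ, x = h y + t • e))
    (hiso : ∃ s > 0, ∀ z ∈ F, ‖z - y‖ ≤ s → h z ∈ K1 → z = y)
    (hsign : ∃ τ : ℝ, 0 < τ ∧ ∀ t : ℝ, 0 < t → t ≤ τ →
      (f (h y - t • e) n - y n) * (f (h y + t • e) n - y n) < 0) {δ : ℝ} (hδ : 0 < δ) :
    ∃ r1 > 0, ∀ r, 0 < r → r ≤ r1 → ∃ g : (Fin 3 → ℝ) → Fin 3 → ℝ,
      ContinuousOn g (F ∩ closedBall y r) ∧ (∀ z ∈ F, ‖z - y‖ = r → g z = h z) ∧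
      (∀ z ∈ F, ‖z - y‖ ≤ r → ‖g z - h z‖ ≤ δ) ∧
      (∀ z ∈ F, ‖z - y‖ ≤ r → (g z ∈ K1 ↔ z = y)) ∧ g y = h y ∧
      ∃ s > 0, ∃ A : (Fin 3 → ℝ) →ₗ[ℝ] Fin 3 → ℝ,
        (∀ z ∈ F, ‖z - y‖ ≤ s → g z = h y + A (z - y)) ∧
        ∀ w, w n = 0 → (∃ t : ℝ, A w = t • e) → w = 0 := by
  obtain ⟨s1, hs1, hplane⟩ := hplane
  obtain ⟨s2, hs2, haxis⟩ := haxis
  obtain ⟨s3, hs3, hiso⟩ := hiso
  obtain ⟨τ, hτ, hsign⟩ := hsign
  obtain ⟨T, hTe⟩ := exists_T he
  set x := h y with hx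
  have hxΩ : x ∈ Ω := (hhf y (hF hy)).1
  set C : ℝ := ‖(T.symm : (ℂ × ℝ) →L[ℝ] (Fin 3 → ℝ))‖ + 1 with hC
  have hCp : 0 < C := by positivity
  have hCb : ∀ X, ‖T.symm X‖ ≤ C * ‖X‖ := by
    intro X
    have := (T.symm : (ℂ × ℝ) →L[ℝ] (Fin 3 → ℝ)).le_opNorm X
    refine this.trans ?_
    gcongr
    rw [hC]; linarith
  set H : ℂ → ℂ × ℝ := fun v => T (h (pt y i j v) - x) with hH
  have hH0 : H 0 = 0 := by simp only [hH, pt_zero, ← hx, sub_self, map_zero]
  have hTh : ∀ v, h (pt y i j v) = x + T.symm (H v) := by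
    intro v; simp only [hH]; rw [T.symm_apply_apply]; abel
  -- step 1
  set m := min s1 s3 with hm
  have hmp : 0 < m := lt_min hs1 hs3
  have hptF : ∀ v, ‖v‖ ≤ m → pt y i j v ∈ F := by
    intro v hv
    rw [hplane _ (((norm_pt_sub hij hni hnj y v).trans hv).trans (min_le_left _ _))]
    exact pt_n hni hnj y v
  have hHc0 : ContinuousOn H {v | ‖v‖ ≤ m} := by
    apply T.continuous.comp_continuousOn
    apply ContinuousOn.sub _ continuousOn_const
    exact hh.comp (continuous_pt y i j).continuousOn (fun v hv => hF (hptF v hv))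
  obtain ⟨ρ, hρ, hρm, hρs⟩ : ∃ ρ > 0, ρ ≤ m ∧ ∀ v, ‖v‖ ≤ ρ → ‖h (pt y i j v) - x‖ ≤ s2 := by
    have h1 : ContinuousWithinAt H {v | ‖v‖ ≤ m} 0 :=
      hHc0 0 (by show ‖(0:ℂ)‖ ≤ m; rw [norm_zero]; exact hmp.le)
    obtain ⟨ρ, hρ, hρ'⟩ := Metric.continuousWithinAt_iff.1 h1 (s2 / C) (by positivity)
    refine ⟨min m (ρ / 2), by positivity, min_le_left _ _, fun v hv => ?_⟩
    have h2 := hρ' (x := v) (by show ‖v‖ ≤ m; exact hv.trans (min_le_left _ _)) (by
      rw [dist_zero_right]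
      have := hv.trans (min_le_right _ _)
      linarith)
    rw [hH0, dist_zero_right] at h2
    rw [hTh v, add_sub_cancel_left]
    calc ‖T.symm (H v)‖ ≤ C * ‖H v‖ := hCb _
      _ ≤ C * (s2 / C) := by gcongr
      _ = s2 := by field_simp
  have hHc : ContinuousOn H {v | ‖v‖ ≤ ρ} := hHc0.mono (fun v (hv : ‖v‖ ≤ ρ) => hv.trans hρm)
  have hTt : ∀ t : ℝ, T (t • e) = (0, t) := by
    intro t; rw [map_smul, hTe]; simp
  have hTst : ∀ t : ℝ, T.symm (0, t) = t • e := by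
    intro t; rw [← hTt t, T.symm_apply_apply]
  -- step 2
  have hax : ∀ v, v ≠ 0 → ‖v‖ ≤ ρ → (H v).1 ≠ 0 := by
    intro v hv0 hv h1
    have h2 : H v = (0, (H v).2) := Prod.ext h1 rfl
    have h3 : h (pt y i j v) = x + (H v).2 • e := by
      rw [hTh v, h2, hTst]
    have h4 : h (pt y i j v) ∈ K1 := (haxis _ (hρs v hv)).2 ⟨_, h3⟩
    have h5 := hiso _ (hptF v (hv.trans hρm))
      (((norm_pt_sub hij hni hnj y v).trans (hv.trans hρm)).trans (min_le_right _ _)) h4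
    have h6 := cpt_pt hij y v
    rw [h5] at h6
    apply hv0
    rw [← h6]
    apply Complex.ext <;> simp [cpt]
  -- step 3
  have hφc : ContinuousAt (fun X : ℂ × ℝ => x + T.symm X) 0 := by fun_prop
  obtain ⟨R, hR, hRτ, hRΩ, hRf⟩ : ∃ R : ℝ, 0 < R ∧ R ≤ τ ∧ (∀ X ∈ closedBall (0 : ℂ × ℝ) R,
      x + T.symm X ∈ Ω) ∧ ∀ X ∈ closedBall (0 : ℂ × ℝ) R, ‖f (x + T.symm X) - y‖ < ρ / 4 := by
    have h1 : ∀ᶠ X : ℂ × ℝ in 𝓝 0, x + T.symm X ∈ Ω := by
      apply hφc.eventually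
      simp only [map_zero, add_zero]
      exact hΩ.mem_nhds hxΩ
    have h2 : ∀ᶠ X : ℂ × ℝ in 𝓝 0, ‖f (x + T.symm X) - y‖ < ρ / 4 := by
      have h3 : ContinuousAt (fun X : ℂ × ℝ => f (x + T.symm X)) 0 := by
        apply ContinuousAt.comp (g := f) _ hφc
        simp only [map_zero, add_zero]
        exact hf.continuousAt (hΩ.mem_nhds hxΩ)
      have h4 : f (x + T.symm (0 : ℂ × ℝ)) = y := by
        rw [map_zero, add_zero]; exact (hhf y (hF hy)).2
      have h5 := Metric.continuousAt_iff'.1 h3 (ρ / 4) (by positivity)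
      filter_upwards [h5] with X hX
      rw [h4, dist_eq_norm] at hX
      exact hX
    obtain ⟨ε, hε, hε'⟩ := Metric.eventually_nhds_iff.1 (h1.and h2)
    refine ⟨min τ (ε / 2), by positivity, min_le_left _ _, ?_, ?_⟩
    · intro X hX
      refine (hε' ?_).1
      have := (mem_closedBall.1 hX).trans (min_le_right _ _)
      linarith
    · intro X hX
      refine (hε' ?_).2
      have := (mem_closedBall.1 hX).trans (min_le_right _ _)
      linarith
  have hfx : ContinuousOn (fun X : ℂ × ℝ => f (x + T.symm X)) (closedBall 0 R) :=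
    hf.comp (by fun_prop) hRΩ
  obtain ⟨σ, hσ0, hσl, hσh⟩ : ∃ σ : ℝ, σ ≠ 0 ∧ σ * (f (x + T.symm (0, -R)) n - y n) < 0 ∧
      0 < σ * (f (x + T.symm (0, R)) n - y n) := by
    have h1 := hsign R hR hRτ
    have h2 : x - R • e = x + T.symm (0, -R) := by rw [hTst, neg_smul]; abel
    have h3 : x + R • e = x + T.symm (0, R) := by rw [hTst]
    rw [h2, h3] at h1
    rcases mul_neg_iff.1 h1 with ⟨ha, hb⟩ | ⟨ha, hb⟩
    · exact ⟨-1, by norm_num, by linarith, by linarith⟩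
    · exact ⟨1, by norm_num, by linarith, by linarith⟩
  have hfn : ContinuousOn (fun X : ℂ × ℝ => f (x + T.symm X) n) (closedBall 0 R) :=
    (continuous_apply n).comp_continuousOn hfx
  have hρ0 : (ρ : ℂ) ≠ 0 := by exact_mod_cast hρ.ne'
  obtain ⟨d, hd, ⟨lam, hlamc, hlam⟩, -⟩ := W865.winding_final (R := R) hR
    (u := fun X => σ * (f (x + T.symm X) n - y n))
    (continuousOn_const.mul (hfn.sub continuousOn_const))
    (h := fun v => H (ρ * v)) (k := fun X => cpt y i j (f (x + T.symm X)) / ρ)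
    (by
      apply hHc.comp (by fun_prop)
      intro v hv
      show ‖(ρ : ℂ) * v‖ ≤ ρ
      rw [norm_mul, norm_real, Real.norm_of_nonneg hρ.le]
      have := hv.2
      nlinarith)
    (by
      intro v hv
      apply hax
      · exact mul_ne_zero hρ0 (norm_pos_iff.1 hv.1)
      · rw [norm_mul, norm_real, Real.norm_of_nonneg hρ.le]
        have := hv.2
        nlinarith)
    (by simp only [mul_zero]; exact hH0) hσl hσh
    (by
      apply ContinuousOn.div_const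
      exact (continuous_cpt y i j).comp_continuousOn (hfx.mono (fun X hX => hX.1)))
    (by
      intro X hX _
      rw [norm_div, norm_real, Real.norm_of_nonneg hρ.le, div_lt_one hρ]
      have h1 := norm_le_sn (cpt y i j (f (x + T.symm X)))
      have h2 := sn_cpt_le y i j (f (x + T.symm X))
      have h3 := hRf X hX
      linarith)
    (by
      intro X hX hu
      rw [mul_div_cancel₀ _ hρ0]
      simp only [hH]
      have h1 : f (x + T.symm X) n = y n := by
        rcases mul_eq_zero.1 hu with h | h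
        · exact absurd h hσ0
        · linarith
      rw [pt_cpt hij hni hnj h1, (hfh _ (hRΩ X hX)).2, add_sub_cancel_left, T.apply_symm_apply])
  -- step 4
  have hW : ∀ v, v ≠ 0 → ‖v‖ ≤ ρ / 2 →
      (H v).1 = v ^ d * exp (lam (v / ρ) - d * (Real.log ρ : ℂ)) := by
    intro v hv0 hv
    have hmem : v / ρ ∈ W865.PD := by
      constructor
      · rw [norm_pos_iff]; exact div_ne_zero hv0 hρ0
      · rw [norm_div, norm_real, Real.norm_of_nonneg hρ.le, div_lt_one hρ]; linarith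
    have h1 := hlam _ hmem
    rw [mul_div_cancel₀ _ hρ0] at h1
    rw [h1, exp_sub, exp_int_mul, ← ofReal_exp, Real.exp_log hρ, div_zpow]
    field_simp
  have hlamc' : ContinuousOn (fun v : ℂ => lam (v / ρ) - d * (Real.log ρ : ℂ))
      {v | v ≠ 0 ∧ ‖v‖ ≤ ρ / 2} := by
    apply ContinuousOn.sub _ continuousOn_const
    apply hlamc.comp (by fun_prop)
    rintro v ⟨hv0, hv⟩
    constructor
    · rw [norm_pos_iff]; exact div_ne_zero hv0 hρ0
    · rw [norm_div, norm_real, Real.norm_of_nonneg hρ.le, div_lt_one hρ]; linarith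
  -- step 5
  set δ' : ℝ := min s2 (δ / 2) / C with hδ'
  have hδ'p : 0 < δ' := by positivity
  have hCδ : C * δ' = min s2 (δ / 2) := by rw [hδ']; field_simp
  obtain ⟨r0, hr0, hmod⟩ := local_mod2 (H := H) (R := ρ / 2) (by positivity)
    (hHc.mono (fun v (hv : ‖v‖ ≤ ρ / 2) => by show ‖v‖ ≤ ρ; linarith)) hH0 hd hlamc' hW hδ'p
  refine ⟨min r0 s1, lt_min hr0 hs1, fun r hr hr1 => ?_⟩
  obtain ⟨g', hg'c, hg'H, hg'δ, hHδ, hg'0, κ, hκ, hlin⟩ := hmod r hr (hr1.trans (min_le_left _ _))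
  have hrs : r ≤ s1 := hr1.trans (min_le_right _ _)
  have hzn : ∀ z ∈ F, ‖z - y‖ ≤ r → z n = y n := fun z hz hzr =>
    (hplane z (hzr.trans hrs)).1 hz
  have hg'00 : g' 0 = 0 := by
    have h1 : sn 0 ≤ r / 2 := by rw [sn_eq_zero.2 rfl]; positivity
    rcases hlin with h | h
    · rw [h 0 h1]; simp
    · rw [h 0 h1]; simp
  have hcy : cpt y i j y = 0 := by apply Complex.ext <;> simp [cpt]
  have hsz : ∀ z, ‖z - y‖ ≤ r → sn (cpt y i j z) ≤ r := fun z hz => (sn_cpt_le y i j z).trans hz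
  have hgx : ∀ z, ‖z - y‖ ≤ r → ‖T.symm (g' (cpt y i j z))‖ ≤ min s2 (δ / 2) := by
    intro z hz
    calc ‖T.symm (g' (cpt y i j z))‖ ≤ C * ‖g' (cpt y i j z)‖ := hCb _
      _ ≤ C * δ' := by gcongr; exact hg'δ _ (hsz z hz)
      _ = _ := hCδ
  refine ⟨fun z => x + T.symm (g' (cpt y i j z)), ?_, ?_, ?_, ?_, ?_, r / 2, by positivity, ?_⟩
  · apply continuousOn_const.add
    apply T.symm.continuous.comp_continuousOn
    apply hg'c.comp (continuous_cpt y i j).continuousOn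
    intro z hz
    exact hsz z (by rw [← dist_eq_norm]; exact hz.2)
  · intro z hz hzr
    have h1 := hzn z hz hzr.le
    have h2 : sn (cpt y i j z) = r := le_antisymm (hsz z hzr.le) (by
      rw [← hzr]; exact norm_le_sn_cpt hij hni hnj h1)
    simp only
    rw [hg'H _ h2, ← hTh, pt_cpt hij hni hnj h1]
  · intro z hz hzr
    have h1 := hzn z hz hzr
    have h2 : h z - x = T.symm (H (cpt y i j z)) := by
      have := hTh (cpt y i j z)
      rw [pt_cpt hij hni hnj h1] at this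
      rw [this]; abel
    have h3 : ‖h z - x‖ ≤ δ / 2 := by
      rw [h2]
      calc ‖T.symm (H (cpt y i j z))‖ ≤ C * ‖H (cpt y i j z)‖ := hCb _
        _ ≤ C * δ' := by gcongr; exact hHδ _ (hsz z hzr)
        _ ≤ δ / 2 := by rw [hCδ]; exact min_le_right _ _
    have h4 := (hgx z hzr).trans (min_le_right _ _)
    have h5 : x + T.symm (g' (cpt y i j z)) - h z = T.symm (g' (cpt y i j z)) - (h z - x) := by abel
    simp only
    rw [h5]
    exact (norm_sub_le _ _).trans (by linarith)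
  · intro z hz hzr
    have h1 := hzn z hz hzr
    simp only
    rw [haxis _ (by rw [add_sub_cancel_left]; exact (hgx z hzr).trans (min_le_left _ _))]
    constructor
    · rintro ⟨t, ht⟩
      have h2 : g' (cpt y i j z) = (0, t) := by
        have h3 := add_left_cancel ht
        rw [← hTt t, ← h3, T.apply_symm_apply]
      have h4 : cpt y i j z = 0 := (hg'0 _ (hsz z hzr)).1 (by rw [h2])
      rw [← pt_cpt hij hni hnj h1, h4, pt_zero]
    · rintro rfl
      exact ⟨0, by rw [hcy, hg'00]; simp⟩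
  · simp only
    rw [hcy, hg'00]; simp
  · -- the linear map
    have hlinC : ∃ c : (Fin 3 → ℝ) →ₗ[ℝ] ℂ, (∀ z, c (z - y) = cpt y i j z) ∧
        ∀ w, w n = 0 → c w = 0 → w = 0 := by
      refine ⟨{ toFun := fun w => ⟨w i, w j⟩, map_add' := ?_, map_smul' := ?_ }, ?_, ?_⟩
      · intro a b; apply Complex.ext <;> simp
      · intro t a; apply Complex.ext <;> simp
      · intro z; apply Complex.ext <;> simp [cpt]
      · intro w hwn hw
        have h1 : w i = 0 := by simpa using congrArg Complex.re hw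
        have h2 : w j = 0 := by simpa using congrArg Complex.im hw
        funext c
        rcases cases3 hij hni hnj c with rfl | rfl | rfl
        · exact h1
        · exact h2
        · exact hwn
    obtain ⟨c, hc, hc0⟩ := hlinC
    have hkey : ∃ B : ℂ →ₗ[ℝ] ℂ, (∀ v, sn v ≤ r / 2 → g' v = (B v, 0)) ∧ ∀ v, B v = 0 → v = 0 := by
      rcases hlin with h | h
      · refine ⟨LinearMap.mulLeft ℝ (κ : ℂ), fun v hv => by rw [h v hv]; rfl, fun v hv => ?_⟩
        rcases mul_eq_zero.1 hv with h' | h'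
        · exact absurd h' (by exact_mod_cast hκ.ne')
        · exact h'
      · refine ⟨(LinearMap.mulLeft ℝ (κ : ℂ)).comp Complex.conjAe.toLinearMap,
          fun v hv => by rw [h v hv]; rfl, fun v hv => ?_⟩
        rcases mul_eq_zero.1 hv with h' | h'
        · exact absurd h' (by exact_mod_cast hκ.ne')
        · exact (map_eq_zero (starRingEnd ℂ)).1 h'
    obtain ⟨B, hB, hB0⟩ := hkey
    refine ⟨(T.symm : (ℂ × ℝ) →ₗ[ℝ] (Fin 3 → ℝ)).comp
      ((LinearMap.inl ℝ ℂ ℝ).comp (B.comp c)), ?_, ?_⟩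
    · intro z hz hzr
      simp only
      rw [hB _ ((sn_cpt_le y i j z).trans hzr), ← hc z]
      rfl
    · rintro w hwn ⟨t, ht⟩
      have h1 : T.symm (B (c w), 0) = t • e := ht
      rw [← hTst t] at h1
      have h2 := T.symm.injective h1
      have h3 : B (c w) = 0 := (Prod.ext_iff.1 h2).1
      exact hc0 w hwn (hB0 _ h3)

end P073.PW86
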