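import Vale.Agent.P073.PW86.Plane
import Vale.Agent.P073.PW86.Loc
import Vale.Agent.P073.MOS.Local

/-!
# P073, block (P-R): an open piece of a coordinate plane is a surface of the class `Surf`
-/

open Set Metric Topology Filter

namespace P073.PW86

open Vale.Agent.P073.St (V IsInv IsHomeo)
open P073.PLS P073.MOS

/-- the flat cycle -/
def flatC (i j : Fin 3) : ZMod 4 → HA := fun x =>
  (![(i, true), (j, true), (i, false), (j, false)] : Fin 4 → HA) x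

theorem isCyc_flat {k i j : Fin 3} (h : i ≠ j ∧ i ≠ k ∧ j ≠ k) :
    IsCyc (fun h h' : HA => h.1 ≠ k ∧ h'.1 ≠ k ∧ h.1 ≠ h'.1) := by
  refine ⟨4, by norm_num, flatC i j, ?_, ?_⟩
  · intro a b hab
    revert a b h i j k
    decide
  · revert h i j k
    decide

theorem abs_mul_sg (i : Fin 3) (a b : ℝ) : b + |a - b| * sg (i, decide (b ≤ a)) = a := by
  by_cases h : b ≤ a
  · simp only [sg, h, decide_true, if_true, mul_one]
    rw [abs_of_nonneg (by linarith)]; ring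
  · simp only [sg, h, decide_false]
    rw [abs_of_neg (by linarith)]; simp

theorem exists_ij (k : Fin 3) : ∃ i j : Fin 3, i ≠ j ∧ k ≠ i ∧ k ≠ j := by
  revert k; decide

theorem rectLocal_plane {Λ : Set V} (hΛ : IsOpen Λ) (k : Fin 3) (c : ℝ) :
    RectLocal {z ∈ Λ | z k = c} := by
  rintro p ⟨hpΛ, hpc⟩
  obtain ⟨ε, hε, hball⟩ := Metric.isOpen_iff.1 hΛ p hpΛ
  obtain ⟨i, j, hij, hki, hkj⟩ := exists_ij k
  refine ⟨ε, hε, _, ⟨isCyc_flat ⟨hij, hki.symm, hkj.symm⟩, fun h h' hh => hh.2.2, fun z hz => ?_⟩⟩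
  constructor
  · rintro ⟨hzΛ, hzc⟩
    refine ⟨(i, decide (p i ≤ z i)), (j, decide (p j ≤ z j)), ⟨hki.symm, hkj.symm, hij⟩,
      |z i - p i|, |z j - p j|, abs_nonneg _, abs_nonneg _, ?_⟩
    funext l
    rcases cases3 hij hki hkj l with rfl | rfl | rfl
    · exact ((qpt_left (h := (l, decide (p l ≤ z l))) hij).trans (abs_mul_sg _ _ _)).symm
    · exact ((qpt_right (h' := (l, decide (p l ≤ z l))) hij).trans (abs_mul_sg _ _ _)).symm
    · rw [qpt_other hki hkj, hzc, hpc]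
  · rintro ⟨h, h', ⟨h1, h2, h3⟩, s, t, hs, ht, rfl⟩
    refine ⟨hball hz, ?_⟩
    rw [qpt_other (Ne.symm h1) (Ne.symm h2)]; exact hpc

/-- an open piece of a good coordinate plane is a surface of the class `Surf` -/
theorem surf_plane {Ω Λ : Set V} (hΛ : IsOpen Λ) (f : V → V) (o : V) (k : Fin 3) (c : ℝ) :
    Surf Ω Λ f (fun z => z k) o c where
  contφ := (continuous_apply k).continuousOn
  rect := rectLocal_plane hΛ k c
  ncpt := fun _ hz hzk => ncpt_plane hΛ k c hz hzk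
  flat := fun _ _ _ _ _ _ _ hx => ⟨k, signAt_plane k hx⟩

/-- **(P-R)** flat pieces: `Q` is a compact conical subset of a good coordinate plane. -/
theorem plane_pls (hPLS : SpecPLS) {Ω Λ : Set V} {f : V → V} {o : V} {k : Fin 3} {c : ℝ}
    (hΩ : IsOpen Ω) (hΛ : IsOpen Λ) (hf : IsHomeo Ω Λ f)
    (hG : GoodLevel Ω f (fun z => z k) o c) (G : Net.Graph Ω)
    (hrat : ∀ i, G.a i ∈ Rat3 o ∧ G.b i ∈ Rat3 o) {Q : Set V} (hQ : IsCompact Q)
    (hQc : ConicalSet Q) (hQΛ : Q ⊆ Λ) (hQk : ∀ z ∈ Q, z k = c) {ε : ℝ} (hε : 0 < ε) :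
    ∃ (D : Set V) (g : ConHomeo Q D), D ⊆ Ω ∧ (∀ z ∈ Q, ‖f (g.toFun z) - z‖ < ε) ∧
      ∀ i, ∀ x ∈ D, x ∈ segment ℝ (G.a i) (G.b i) → f x ∈ Q :=
  piece_pls hPLS hΩ hΛ hf hG (surf_plane hΛ f o k c) G hrat hQ hQc
    (fun z hz => ⟨hQΛ hz, hQk z hz⟩) hε

end P073.PW86
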