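import Vale.Agent.P073.PW86.Loc
import Vale.Agent.P073.PLS.Defs

/-!
# P073, block G1: the modified map (`SpecG1`)
-/

open Set Metric Topology Filter

namespace P073.PW86

open Vale.Agent.P073.St (V IsInv)
open P073.PLS

/-- **Gluing local modifications near isolated points.** -/
theorem glue {F Y : Set V} {h : V → V} (hh : ContinuousOn h F)
    (hloc : ∀ z ∈ F, ∃ ρ > 0, ∀ y ∈ Y, ‖y - z‖ < ρ → y = z)
    {G : V → V → V} {r : V → ℝ} (hr : ∀ y ∈ Y, 0 < r y)
    (hG : ∀ y ∈ Y, ContinuousOn (G y) (F ∩ closedBall y (r y)))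
    (hGh : ∀ y ∈ Y, ∀ z ∈ F, ‖z - y‖ = r y → G y z = h z)
    (hsep : ∀ y ∈ Y, ∀ y' ∈ Y, y ≠ y' → 4 * r y ≤ ‖y - y'‖) :
    ∃ g : V → V, ContinuousOn g F ∧ (∀ y ∈ Y, ∀ z, ‖z - y‖ ≤ r y → g z = G y z) ∧
      (∀ z, (∀ y ∈ Y, r y < ‖z - y‖) → g z = h z) := by
  classical
  have huniq : ∀ y ∈ Y, ∀ y' ∈ Y, ∀ z, ‖z - y‖ ≤ r y → ‖z - y'‖ ≤ r y' → y = y' := by
    intro y hy y' hy' z h1 h2
    by_contra hne
    have h3 := hsep y hy y' hy' hne
    have h4 := hsep y' hy' y hy (Ne.symm hne)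
    rw [norm_sub_rev y' y] at h4
    have h5 : ‖y - y'‖ ≤ ‖z - y'‖ + ‖z - y‖ := by
      have : y - y' = (z - y') - (z - y) := by abel
      rw [this]; exact norm_sub_le _ _
    have h6 := hr y hy
    linarith
  set g : V → V := fun z => if hz : ∃ y ∈ Y, ‖z - y‖ ≤ r y then G hz.choose z else h z with hg
  have hg1 : ∀ y ∈ Y, ∀ z, ‖z - y‖ ≤ r y → g z = G y z := by
    intro y hy z hz
    have hex : ∃ y ∈ Y, ‖z - y‖ ≤ r y := ⟨y, hy, hz⟩
    simp only [hg, dif_pos hex]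
    rw [huniq _ hex.choose_spec.1 y hy z hex.choose_spec.2 hz]
  have hg2 : ∀ z, (∀ y ∈ Y, r y < ‖z - y‖) → g z = h z := by
    intro z hz
    have hex : ¬ ∃ y ∈ Y, ‖z - y‖ ≤ r y := by
      rintro ⟨y, hy, h1⟩
      exact absurd (hz y hy) (not_lt.2 h1)
    simp only [hg, dif_neg hex]
  refine ⟨g, ?_, hg1, hg2⟩
  -- the one-point modification
  have hone : ∀ y ∈ Y, ContinuousOn (fun z => if ‖z - y‖ ≤ r y then G y z else h z) F := by
    intro y hy
    have hcl : IsClosed {z : V | ‖z - y‖ ≤ r y} := isClosed_le (by fun_prop) continuous_const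
    apply ContinuousOn.if
    · rintro z ⟨hz, hz2⟩
      have := frontier_le_subset_eq (f := fun z : V => ‖z - y‖) (g := fun _ => r y)
        (by fun_prop) continuous_const hz2
      exact hGh y hy z hz this
    · rw [hcl.closure_eq]
      refine (hG y hy).mono ?_
      rintro z ⟨hz, hz2⟩
      exact ⟨hz, by rw [mem_closedBall, dist_eq_norm]; exact hz2⟩
    · exact hh.mono inter_subset_left
  intro z hz
  obtain ⟨ρ, hρ, hρz⟩ := hloc z hz
  have hball : ball z (ρ / 2) ∈ 𝓝[F] z := mem_nhdsWithin_of_mem_nhds (ball_mem_nhds z (by positivity))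
  by_cases hex : ∃ y ∈ Y, ∃ w, ‖w - z‖ < ρ / 2 ∧ ‖w - y‖ ≤ r y
  · obtain ⟨y, hy, w, hw, hwy⟩ := hex
    refine (hone y hy z hz).congr_of_eventuallyEq ?_ ?_
    · filter_upwards [hball] with w' hw'
      rw [mem_ball, dist_eq_norm] at hw'
      by_cases h1 : ‖w' - y‖ ≤ r y
      · rw [if_pos h1, hg1 y hy w' h1]
      · rw [if_neg h1]
        apply hg2
        intro y' hy'
        by_contra h2
        push Not at h2
        have hne : y ≠ y' := by rintro rfl; exact h1 h2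
        have h3 := hsep y hy y' hy' hne
        have h4 := hsep y' hy' y hy (Ne.symm hne)
        rw [norm_sub_rev y' y] at h4
        have h5 : ‖y - z‖ ≤ ‖w - z‖ + ‖w - y‖ := by
          have : y - z = (w - z) - (w - y) := by abel
          rw [this]; exact norm_sub_le _ _
        have h6 : ‖y' - z‖ ≤ ‖w' - z‖ + ‖w' - y'‖ := by
          have : y' - z = (w' - z) - (w' - y') := by abel
          rw [this]; exact norm_sub_le _ _
        have h7 : ‖y - y'‖ ≤ ‖y - z‖ + ‖y' - z‖ := by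
          have : y - y' = (y - z) - (y' - z) := by abel
          rw [this]; exact norm_sub_le _ _
        have h8 := hρz y hy (by linarith)
        have h9 := hρz y' hy' (by linarith)
        exact hne (h8.trans h9.symm)
    · by_cases h1 : ‖z - y‖ ≤ r y
      · simp only [if_pos h1]; exact hg1 y hy z h1
      · simp only [if_neg h1]
        apply hg2
        intro y' hy'
        by_contra h2
        push Not at h2
        have hne : y ≠ y' := by rintro rfl; exact h1 h2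
        have h3 := hsep y hy y' hy' hne
        have h4 := hsep y' hy' y hy (Ne.symm hne)
        rw [norm_sub_rev y' y] at h4
        have h5 : ‖y - z‖ ≤ ‖w - z‖ + ‖w - y‖ := by
          have : y - z = (w - z) - (w - y) := by abel
          rw [this]; exact norm_sub_le _ _
        have h6 : ‖y' - z‖ ≤ ‖z - y'‖ := (norm_sub_rev _ _).le
        have h7 : ‖y - y'‖ ≤ ‖y - z‖ + ‖y' - z‖ := by
          have : y - y' = (y - z) - (y' - z) := by abel
          rw [this]; exact norm_sub_le _ _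
        have h8 := hρz y hy (by linarith)
        have h9 := hρz y' hy' (by linarith)
        exact hne (h8.trans h9.symm)
  · push Not at hex
    refine (hh z hz).congr_of_eventuallyEq ?_ ?_
    · filter_upwards [hball] with w' hw'
      rw [mem_ball, dist_eq_norm] at hw'
      exact hg2 w' (fun y hy => hex y hy w' hw')
    · exact hg2 z (fun y hy => hex y hy z (by rw [sub_self, norm_zero]; positivity))

/-- the one-skeleton is closed in `Ω` -/
theorem eventually_notMem_K1 {Ω : Set V} (T : Tiling Ω) {x : V} (hx : x ∈ Ω) (hx1 : x ∉ T.K1) :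
    ∀ᶠ y in 𝓝 x, y ∉ T.K1 := by
  obtain ⟨U, hU, hfin⟩ := T.lf x hx
  have h1 : ∀ᶠ y in 𝓝 x, ∀ i ∈ {i | (T.C i ∩ U).Nonempty}, y ∈ T.C i → x ∈ T.C i := by
    rw [eventually_all_finite hfin]
    intro i _
    by_cases hi : x ∈ T.C i
    · exact Eventually.of_forall (fun _ _ => hi)
    · filter_upwards [(T.cpt i).isClosed.isOpen_compl.mem_nhds hi] with y hy hy'
      exact absurd hy' hy
  filter_upwards [h1, hU] with y hy hyU
  rintro ⟨i, j, k, hij, hik, hjk, hi, hj, hk⟩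
  exact hx1 ⟨i, j, k, hij, hik, hjk, hy i ⟨y, hi, hyU⟩ hi, hy j ⟨y, hj, hyU⟩ hj,
    hy k ⟨y, hk, hyU⟩ hk⟩

theorem K1_subset {Ω : Set V} (T : Tiling Ω) : T.K1 ⊆ Ω := by
  rintro x ⟨i, j, k, -, -, -, hi, -⟩
  rw [← T.cover]
  exact mem_iUnion.2 ⟨i, hi⟩

/-- the local picture at a crossing -/
theorem crossing {Ω Λ : Set V} {f h : V → V} {o : V} {φ : V → ℝ} {t : ℝ}
    {T : Tiling Ω} (hΩ : IsOpen Ω) (hΛ : IsOpen Λ) (hinv : IsInv Ω Λ f h)
    (hf : ContinuousOn f Ω) (hh : ContinuousOn h Λ) (hG : GoodLevel Ω f φ o t)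
    (hS : Surf Ω Λ f φ o t) (hT : T.Good o) {y : V} (hyΛ : y ∈ Λ) (hyt : φ y = t)
    (hyK : h y ∈ T.K1) :
    ∃ (n : Fin 3) (e : V), e ≠ 0 ∧
      (∃ s > 0, ∀ z, ‖z - y‖ ≤ s → (z ∈ {z ∈ Λ | φ z = t} ↔ z n = y n)) ∧
      (∃ s > 0, ∀ x, ‖x - h y‖ ≤ s → (x ∈ T.K1 ↔ ∃ t : ℝ, x = h y + t • e)) ∧
      (∃ s > 0, ∀ z ∈ {z ∈ Λ | φ z = t}, ‖z - y‖ ≤ s → h z ∈ T.K1 → z = y) ∧
      ∃ τ : ℝ, 0 < τ ∧ ∀ t : ℝ, 0 < t → t ≤ τ →
        (f (h y - t • e) n - y n) * (f (h y + t • e) n - y n) < 0 := by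
  set x := h y with hx
  have hxΩ : x ∈ Ω := (hinv.2 y hyΛ).1
  have hfx : f x = y := (hinv.2 y hyΛ).2
  rcases hT.edge x hyK with hrat | ⟨e, he, ⟨r, hr, hline, -⟩, a, ha, b, hb, s, hs0, hs1, hbe, hxs,
    hseg⟩
  · exact absurd (by rw [hfx]; exact hyt) (hG.rat x hrat hxΩ)
  have hsegΩ : segment ℝ a b ⊆ Ω := hseg.trans (K1_subset T)
  have hsegm : ∀ θ : ℝ, 0 ≤ θ → θ ≤ 1 → a + θ • e ∈ segment ℝ a b := by
    intro θ h0 h1
    rw [segment_eq_image', ← hbe]
    exact ⟨θ, ⟨h0, h1⟩, rfl⟩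
  have hxseg : x ∈ segment ℝ a b := by rw [hxs]; exact hsegm s hs0.le hs1.le
  obtain ⟨n, σ, hσ, r', hr', hsg⟩ := hS.flat a ha b hb hsegΩ x hxseg (by rw [hfx]; exact hyt)
  rw [hfx] at hsg
  obtain ⟨rΛ, hrΛ, hrΛ'⟩ := Metric.isOpen_iff.1 hΛ y hyΛ
  refine ⟨n, e, he, ?_, ?_, ?_, ?_⟩
  · refine ⟨min r' rΛ / 2, by positivity, fun z hz => ?_⟩
    have h0 : 0 < min r' rΛ := by positivity
    have h1 : ‖z - y‖ < r' := by have := min_le_left r' rΛ; linarith
    have h2 : ‖z - y‖ < rΛ := by have := min_le_right r' rΛ; linarith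
    have h3 := hsg z (by rw [mem_ball, dist_eq_norm]; exact h1)
    rw [← h3.1]
    constructor
    · exact fun h => h.2
    · exact fun h => ⟨hrΛ' (by rw [mem_ball, dist_eq_norm]; exact h2), h⟩
  · refine ⟨r / 2, by positivity, fun z hz => hline z ?_⟩
    rw [mem_ball, dist_eq_norm]; linarith
  · have hfin := hG.fin a ha b hb hsegΩ
    set P := {x ∈ segment ℝ a b | φ (f x) = t} with hP
    have h1 : ∀ᶠ x' in 𝓝 x, x' ∉ P \ {x} :=
      (hfin.subset sdiff_subset).isClosed.isOpen_compl.mem_nhds (by simp)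
    have h2 : ∀ᶠ x' in 𝓝 x, ‖x' - x‖ < min r (min s (1 - s) * ‖e‖) := by
      have hpos : 0 < min r (min s (1 - s) * ‖e‖) := by
        have : 0 < 1 - s := by linarith
        have := norm_pos_iff.2 he
        positivity
      filter_upwards [ball_mem_nhds x hpos] with x' hx'
      rwa [mem_ball, dist_eq_norm] at hx'
    have h3 := ((hh y hyΛ).tendsto.eventually (h1.and h2))
    rw [eventually_nhdsWithin_iff] at h3
    obtain ⟨η, hη, hη'⟩ := Metric.eventually_nhds_iff.1 h3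
    refine ⟨η / 2, by positivity, ?_⟩
    rintro z ⟨hzΛ, hzt⟩ hz hzK
    obtain ⟨h4, h5⟩ := hη' (y := z) (by rw [dist_eq_norm]; linarith) hzΛ
    obtain ⟨τ, hτ⟩ := (hline (h z) (by
      rw [mem_ball, dist_eq_norm]; exact h5.trans_le (min_le_left _ _))).1 hzK
    have h6 : |τ| < min s (1 - s) := by
      have h7 := h5.trans_le (min_le_right _ _)
      rw [hτ, add_sub_cancel_left, norm_smul, Real.norm_eq_abs] at h7
      exact lt_of_mul_lt_mul_right h7 (norm_nonneg _)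
    have h8 := abs_lt.1 (h6.trans_le (min_le_left _ _))
    have h9 := abs_lt.1 (h6.trans_le (min_le_right _ _))
    have h10 : h z ∈ segment ℝ a b := by
      have : h z = a + (s + τ) • e := by rw [hτ, hxs, add_smul]; abel
      rw [this]
      exact hsegm _ (by linarith) (by linarith)
    have h11 : h z = x := by
      by_contra hne
      exact h4 ⟨⟨h10, by rw [(hinv.2 z hzΛ).2]; exact hzt⟩, hne⟩
    rw [← (hinv.2 z hzΛ).2, h11, hfx]
  · obtain ⟨σ2, hσ2, hgt, hlt⟩ := hG.sign a ha b hb hsegΩ s hs0 hs1 (by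
      rw [hbe, ← hxs, hfx]; exact hyt)
    rw [hbe] at hgt hlt
    have hpos : ∀ z ∈ ball y r', 0 < σ * (φ z - t) → 0 < z n - y n := by
      intro z hz h1
      have := (hsg z hz).2.1 h1
      linarith
    have hneg : ∀ z ∈ ball y r', σ * (φ z - t) < 0 → z n - y n < 0 := by
      intro z hz h1
      have h2 : ¬ y n < z n := fun h3 => by
        have := (hsg z hz).2.2 h3
        linarith
      have h4 : z n ≠ y n := fun h5 => by
        have := (hsg z hz).1.2 h5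
        rw [this, sub_self, mul_zero] at h1
        exact lt_irrefl _ h1
      have := lt_of_le_of_ne (not_lt.1 h2) h4
      linarith
    have hnear : ∀ᶠ x' in 𝓝 x, f x' ∈ ball y r' := by
      have := (hf.continuousAt (hΩ.mem_nhds hxΩ)).eventually
        (show ∀ᶠ z in 𝓝 (f x), z ∈ ball y r' by rw [hfx]; exact ball_mem_nhds y hr')
      exact this
    have hc1 : Tendsto (fun τ : ℝ => x + τ • e) (𝓝[>] 0) (𝓝 x) := by
      have : ContinuousAt (fun τ : ℝ => x + τ • e) 0 := by fun_prop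
      have h2 := this.tendsto
      simp only [zero_smul, add_zero] at h2
      exact h2.mono_left nhdsWithin_le_nhds
    have hc2 : Tendsto (fun τ : ℝ => x - τ • e) (𝓝[>] 0) (𝓝 x) := by
      have : ContinuousAt (fun τ : ℝ => x - τ • e) 0 := by fun_prop
      have h2 := this.tendsto
      simp only [zero_smul, sub_zero] at h2
      exact h2.mono_left nhdsWithin_le_nhds
    have ht1 : Tendsto (fun τ : ℝ => s + τ) (𝓝[>] 0) (𝓝[>] s) := by
      apply tendsto_nhdsWithin_of_tendsto_nhds_of_eventually_within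
      · have : ContinuousAt (fun τ : ℝ => s + τ) 0 := by fun_prop
        have h2 := this.tendsto
        simp only [add_zero] at h2
        exact h2.mono_left nhdsWithin_le_nhds
      · filter_upwards [self_mem_nhdsWithin] with τ hτ
        simpa using hτ
    have ht2 : Tendsto (fun τ : ℝ => s - τ) (𝓝[>] 0) (𝓝[<] s) := by
      apply tendsto_nhdsWithin_of_tendsto_nhds_of_eventually_within
      · have : ContinuousAt (fun τ : ℝ => s - τ) 0 := by fun_prop
        have h2 := this.tendsto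
        simp only [sub_zero] at h2
        exact h2.mono_left nhdsWithin_le_nhds
      · filter_upwards [self_mem_nhdsWithin] with τ hτ
        simpa using hτ
    have hall := ((hc1.eventually hnear).and (hc2.eventually hnear)).and
      ((ht1.eventually hgt).and (ht2.eventually hlt))
    obtain ⟨τ, hτ, hτ'⟩ := (mem_nhdsGT_iff_exists_Ioc_subset).1 hall
    refine ⟨τ, hτ, fun t' ht' ht'' => ?_⟩
    obtain ⟨⟨h1, h2⟩, h3, h4⟩ := hτ' ⟨ht', ht''⟩
    have h5 : a + (s + t') • e = x + t' • e := by rw [hxs, add_smul]; abel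
    have h6 : a + (s - t') • e = x - t' • e := by rw [hxs, sub_smul]; abel
    simp only [h5] at h3
    simp only [h6] at h4
    by_cases hσσ : σ = σ2
    · rw [← hσσ] at h3 h4
      exact mul_neg_of_neg_of_pos (hneg _ h2 h4) (hpos _ h1 h3)
    · have h7 : σ = -σ2 := by
        rcases hσ with h8 | h8 <;> rcases hσ2 with h9 | h9
        · exact absurd (h8.trans h9.symm) hσσ
        · rw [h8, h9]; norm_num
        · rw [h8, h9]
        · exact absurd (h8.trans h9.symm) hσσ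
      apply mul_neg_of_pos_of_neg
      · apply hpos _ h2
        rw [h7]; linarith
      · apply hneg _ h1
        rw [h7]; linarith

/-- for every coordinate there are two other ones -/
theorem exists_other (n : Fin 3) : ∃ i j : Fin 3, i ≠ j ∧ n ≠ i ∧ n ≠ j := by
  fin_cases n
  · exact ⟨1, 2, by decide, by decide, by decide⟩
  · exact ⟨0, 2, by decide, by decide, by decide⟩
  · exact ⟨0, 1, by decide, by decide, by decide⟩

/-- the local modification at a crossing, all requirements -/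
theorem local_G1 {Ω Λ : Set V} {f h : V → V} {o : V} {φ : V → ℝ} {t : ℝ}
    {T : Tiling Ω} (hΩ : IsOpen Ω) (hΛ : IsOpen Λ) (hinv : IsInv Ω Λ f h)
    (hf : ContinuousOn f Ω) (hh : ContinuousOn h Λ) (hG : GoodLevel Ω f φ o t)
    (hS : Surf Ω Λ f φ o t) (hT : T.Good o) {δ : V → ℝ}
    (hδc : ContinuousOn δ {z ∈ Λ | φ z = t}) (hδ : ∀ z ∈ Λ, φ z = t → 0 < δ z)
    {y : V} (hyΛ : y ∈ Λ) (hyt : φ y = t) (hyK : h y ∈ T.K1) {ρ : ℝ} (hρ : 0 < ρ) :
    ∃ r > 0, r ≤ ρ ∧ r < δ y ∧ ∃ g : V → V, ContinuousOn g ({z ∈ Λ | φ z = t} ∩ closedBall y r) ∧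
      (∀ z ∈ {z ∈ Λ | φ z = t}, ‖z - y‖ = r → g z = h z) ∧
      (∀ z ∈ {z ∈ Λ | φ z = t}, ‖z - y‖ ≤ r → ‖g z - h z‖ < δ z ∧ g z ∈ Ω ∧
        (g z ∈ T.K1 → z = y)) ∧ g y = h y ∧
      ∃ s > 0, s ≤ r ∧ ∃ (n : Fin 3) (A : V →L[ℝ] V),
        closedBall y s ∩ {z | z n = y n} ⊆ {z ∈ Λ | φ z = t} ∧
        {z ∈ Λ | φ z = t} ∩ closedBall y s ⊆ {z | z n = y n} ∧
        (∀ z ∈ {z ∈ Λ | φ z = t} ∩ closedBall y s, g z = h y + A (z - y)) ∧
        ∀ w : V, w n = 0 → w ≠ 0 → ∀ᶠ τ in 𝓝[>] (0:ℝ), h y + τ • A w ∉ T.K1 := by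
  set F := {z ∈ Λ | φ z = t} with hF
  have hyF : y ∈ F := ⟨hyΛ, hyt⟩
  obtain ⟨n, e, he, hplane, haxis, hiso, hsign⟩ :=
    crossing hΩ hΛ hinv hf hh hG hS hT hyΛ hyt hyK
  obtain ⟨i, j, hij, hni, hnj⟩ := exists_other n
  have hxΩ : h y ∈ Ω := (hinv.2 y hyΛ).1
  obtain ⟨d, hd, hdΩ⟩ := Metric.isOpen_iff.1 hΩ (h y) hxΩ
  have hδy := hδ y hyΛ hyt
  obtain ⟨r1, hr1, hmap⟩ := local_map hΩ hf hh hinv.1 hinv.2 (F := F) (fun z hz => hz.1) hyF
    hij hni hnj hplane he haxis hiso hsign (δ := min (δ y / 3) (d / 3)) (by positivity)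
  -- δ and h vary little near y
  have h1 : ∀ᶠ z in 𝓝[F] y, δ y / 2 < δ z :=
    (hδc y hyF).eventually (lt_mem_nhds (by linarith))
  have h2 : ∀ᶠ z in 𝓝[F] y, ‖h z - h y‖ < d / 2 := by
    have h3 : ContinuousWithinAt h F y := (hh y hyΛ).mono (fun z hz => hz.1)
    have h4 := h3.eventually (ball_mem_nhds (h y) (ε := d / 2) (by positivity))
    filter_upwards [h4] with z hz
    rw [← dist_eq_norm]
    exact hz
  obtain ⟨r2, hr2, hr2'⟩ := Metric.eventually_nhds_iff.1 (eventually_nhdsWithin_iff.1 (h1.and h2))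
  obtain ⟨s1, hs1, hs1'⟩ := hplane
  obtain ⟨s2, hs2, hs2'⟩ := haxis
  set r := min (min r1 (r2 / 2)) (min ρ (δ y / 2)) with hrdef
  have hr : 0 < r := by positivity
  have hrr1 : r ≤ r1 := (min_le_left _ _).trans (min_le_left _ _)
  have hrr2 : r ≤ r2 / 2 := (min_le_left _ _).trans (min_le_right _ _)
  have hrρ : r ≤ ρ := (min_le_right _ _).trans (min_le_left _ _)
  have hrδ : r ≤ δ y / 2 := (min_le_right _ _).trans (min_le_right _ _)
  obtain ⟨g, hgc, hgh, hgδ, hgK, hgy, s, hs, A, hA, hA0⟩ := hmap r hr hrr1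
  refine ⟨r, hr, hrρ, by linarith, g, hgc, hgh, ?_, hgy, min s (min s1 r), by positivity,
    (min_le_right _ _).trans (min_le_right _ _), n, LinearMap.toContinuousLinearMap A, ?_, ?_, ?_,
    ?_⟩
  · intro z hz hzr
    obtain ⟨h3, h4⟩ := hr2' (y := z) (by rw [dist_eq_norm]; linarith) hz
    have h5 := hgδ z hz hzr
    have h6 : ‖g z - h z‖ ≤ δ y / 3 := h5.trans (min_le_left _ _)
    have h7 : ‖g z - h z‖ ≤ d / 3 := h5.trans (min_le_right _ _)
    refine ⟨by linarith, hdΩ ?_, (hgK z hz hzr).1⟩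
    rw [mem_ball, dist_eq_norm]
    have h8 : ‖g z - h y‖ ≤ ‖g z - h z‖ + ‖h z - h y‖ := by
      have : g z - h y = (g z - h z) + (h z - h y) := by abel
      rw [this]; exact norm_add_le _ _
    linarith
  · rintro z ⟨hz, hzn⟩
    rw [mem_closedBall, dist_eq_norm] at hz
    exact (hs1' z (hz.trans ((min_le_right _ _).trans (min_le_left _ _)))).2 hzn
  · rintro z ⟨hz, hz'⟩
    rw [mem_closedBall, dist_eq_norm] at hz'
    exact (hs1' z (hz'.trans ((min_le_right _ _).trans (min_le_left _ _)))).1 hz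
  · rintro z ⟨hz, hz'⟩
    rw [mem_closedBall, dist_eq_norm] at hz'
    rw [hA z hz (hz'.trans (min_le_left _ _))]
    rfl
  · intro w hwn hw0
    have h3 : ∀ᶠ τ in 𝓝[>] (0:ℝ), ‖(h y + τ • A w) - h y‖ < s2 := by
      have h4 : ContinuousAt (fun τ : ℝ => ‖(h y + τ • A w) - h y‖) 0 := by fun_prop
      have h5 := h4.eventually (gt_mem_nhds (a := s2) (by simpa using hs2))
      exact h5.filter_mono nhdsWithin_le_nhds
    filter_upwards [h3, self_mem_nhdsWithin] with τ hτ hτ0 hmem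
    obtain ⟨t', ht'⟩ := (hs2' _ hτ.le).1 hmem
    have h6 : τ • A w = t' • e := add_left_cancel ht'
    apply hw0
    apply hA0 w hwn
    refine ⟨τ⁻¹ * t', ?_⟩
    rw [mul_smul, ← h6, smul_smul, inv_mul_cancel₀ (ne_of_gt hτ0), one_smul]

/-- the crossings are isolated -/
theorem isolated {Ω Λ : Set V} {f h : V → V} {o : V} {φ : V → ℝ} {t : ℝ}
    {T : Tiling Ω} (hΩ : IsOpen Ω) (hΛ : IsOpen Λ) (hinv : IsInv Ω Λ f h)
    (hf : ContinuousOn f Ω) (hh : ContinuousOn h Λ) (hG : GoodLevel Ω f φ o t)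
    (hS : Surf Ω Λ f φ o t) (hT : T.Good o) {z : V} (hz : z ∈ {z ∈ Λ | φ z = t}) :
    ∃ ρ > 0, ∀ y ∈ {z ∈ Λ | φ z = t ∧ h z ∈ T.K1}, ‖y - z‖ < ρ → y = z := by
  by_cases hzK : h z ∈ T.K1
  · obtain ⟨n, e, he, hplane, haxis, ⟨s, hs, hiso⟩, hsign⟩ :=
      crossing hΩ hΛ hinv hf hh hG hS hT hz.1 hz.2 hzK
    exact ⟨s, hs, fun y hy hyz => hiso y ⟨hy.1, hy.2.1⟩ hyz.le hy.2.2⟩
  · have h1 := (hh z hz.1).eventually (eventually_notMem_K1 T (hinv.2 z hz.1).1 hzK)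
    obtain ⟨ρ, hρ, hρ'⟩ := Metric.eventually_nhds_iff.1 (eventually_nhdsWithin_iff.1 h1)
    refine ⟨ρ, hρ, fun y hy hyz => ?_⟩
    exact absurd hy.2.2 (hρ' (by rw [dist_eq_norm]; exact hyz) hy.1)

/-- **G1** -/
theorem specG1 : SpecG1 := by
  intro Ω Λ f h o φ t T hΩ hΛ hinv hf hh hG hS hT δ hδc hδ
  set F := {z ∈ Λ | φ z = t} with hF
  set Y := {z ∈ Λ | φ z = t ∧ h z ∈ T.K1} with hY
  have hYF : Y ⊆ F := fun z hz => ⟨hz.1, hz.2.1⟩
  have hiso : ∀ z ∈ F, ∃ ρ > 0, ∀ y ∈ Y, ‖y - z‖ < ρ → y = z := fun z hz =>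
    isolated hΩ hΛ hinv hf hh hG hS hT hz
  have hloc : ∀ y ∈ Y, ∃ r > 0, (∀ y' ∈ Y, y ≠ y' → 4 * r ≤ ‖y - y'‖) ∧ r < δ y ∧
      ∃ g : V → V, ContinuousOn g (F ∩ closedBall y r) ∧ (∀ z ∈ F, ‖z - y‖ = r → g z = h z) ∧
      (∀ z ∈ F, ‖z - y‖ ≤ r → ‖g z - h z‖ < δ z ∧ g z ∈ Ω ∧ (g z ∈ T.K1 → z = y)) ∧ g y = h y ∧
      ∃ s > 0, s ≤ r ∧ ∃ (n : Fin 3) (A : V →L[ℝ] V),
        closedBall y s ∩ {z | z n = y n} ⊆ F ∧ F ∩ closedBall y s ⊆ {z | z n = y n} ∧
        (∀ z ∈ F ∩ closedBall y s, g z = h y + A (z - y)) ∧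
        ∀ w : V, w n = 0 → w ≠ 0 → ∀ᶠ τ in 𝓝[>] (0:ℝ), h y + τ • A w ∉ T.K1 := by
    intro y hy
    obtain ⟨ρ, hρ, hρ'⟩ := hiso y (hYF hy)
    obtain ⟨r, hr, hrρ, hrδ, g, h1, h2, h3, h4, h5⟩ :=
      local_G1 hΩ hΛ hinv hf hh hG hS hT hδc hδ hy.1 hy.2.1 hy.2.2 (ρ := ρ / 4) (by positivity)
    refine ⟨r, hr, ?_, hrδ, g, h1, h2, h3, h4, h5⟩
    intro y' hy' hne
    by_contra hcon
    push Not at hcon
    exact hne (hρ' y' hy' (by rw [norm_sub_rev]; linarith)).symm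
  choose! r hr hsep hrδ G hGc hGh hGb hGy s hs hsr hlin using hloc
  obtain ⟨g, hgc, hg1, hg2⟩ := glue (hh.mono (fun z hz => hz.1)) hiso hr hGc hGh hsep
  have hself : ∀ y ∈ Y, ‖y - y‖ ≤ r y := by
    intro y hy; rw [sub_self, norm_zero]; exact (hr y hy).le
  have hcase : ∀ z, (∃ y ∈ Y, ‖z - y‖ ≤ r y) ∨ ∀ y ∈ Y, r y < ‖z - y‖ := by
    intro z
    by_cases hex : ∃ y ∈ Y, ‖z - y‖ ≤ r y
    · exact Or.inl hex
    · push Not at hex; exact Or.inr hex
  refine ⟨g, s, hgc, ?_, ?_, ?_, ?_, ?_, ?_⟩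
  · intro z hz
    rcases hcase z with ⟨y, hy, hzy⟩ | hz'
    · rw [hg1 y hy z hzy]; exact (hGb y hy z hz hzy).2.1
    · rw [hg2 z hz']; exact (hinv.2 z hz.1).1
  · intro z hz
    rcases hcase z with ⟨y, hy, hzy⟩ | hz'
    · rw [hg1 y hy z hzy]; exact (hGb y hy z hz hzy).1
    · rw [hg2 z hz', sub_self, norm_zero]; exact hδ z hz.1 hz.2
  · intro z hz hzK
    rcases hcase z with ⟨y, hy, hzy⟩ | hz'
    · rw [hg1 y hy z hzy] at hzK
      rw [(hGb y hy z hz hzy).2.2 hzK]; exact hy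
    · rw [hg2 z hz'] at hzK
      exact ⟨hz.1, hz.2, hzK⟩
  · intro y hy
    rw [hg1 y hy y (hself y hy)]; exact hGy y hy
  · intro y hy
    refine ⟨hs y hy, (hsr y hy).trans_lt (hrδ y hy), ?_⟩
    obtain ⟨n, A, h1, h2, h3, h4⟩ := hlin y hy
    refine ⟨n, A, h1, h2, ?_, h4⟩
    intro z hz
    have h5 : ‖z - y‖ ≤ r y := by
      have := hz.2
      rw [mem_closedBall, dist_eq_norm] at this
      exact this.trans (hsr y hy)
    rw [hg1 y hy z h5]; exact h3 z hz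
  · intro y hy y' hy' hne
    rw [Set.disjoint_left]
    intro z hz hz'
    rw [mem_closedBall, dist_eq_norm] at hz hz'
    have h1 := hsep y hy y' hy' hne
    have h2 := hsep y' hy' y hy (Ne.symm hne)
    rw [norm_sub_rev y' y] at h2
    have h3 : ‖y - y'‖ ≤ ‖z - y'‖ + ‖z - y‖ := by
      have : y - y' = (z - y') - (z - y) := by abel
      rw [this]; exact norm_sub_le _ _
    have h4 := hsr y hy
    have h5 := hsr y' hy'
    have h6 := hr y hy
    linarith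

end P073.PW86
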