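import Vale.Agent.P073.PW86.Log
import Mathlib.Analysis.Complex.Norm

/-!
# P073, block PW: local modification

A map `h` of a plane neighbourhood of `y₀` into three-space, which winds exactly once around the
axis through `x₀ = h y₀` in the direction `k`, is changed inside a small square so that it meets
the axis only at the centre, and is an axis-parallel similarity near the centre.
-/

open Set Topology Complex

namespace P073.PW86

/-- sup norm of a complex number -/
noncomputable def sn (v : ℂ) : ℝ := max |v.re| |v.im|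

theorem sn_nonneg (v : ℂ) : 0 ≤ sn v := (abs_nonneg _).trans (le_max_left _ _)

theorem sn_le_norm (v : ℂ) : sn v ≤ ‖v‖ := max_le (abs_re_le_norm v) (abs_im_le_norm v)

theorem norm_le_sn (v : ℂ) : ‖v‖ ≤ 2 * sn v := by
  have := norm_le_abs_re_add_abs_im v
  have h1 : |v.re| ≤ sn v := le_max_left _ _
  have h2 : |v.im| ≤ sn v := le_max_right _ _
  linarith

theorem continuous_sn : Continuous sn := by unfold sn; fun_prop

theorem sn_eq_zero {v : ℂ} : sn v = 0 ↔ v = 0 := by
  constructor
  · intro h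
    have := norm_le_sn v
    rw [h, mul_zero] at this
    exact norm_le_zero_iff.1 this
  · rintro rfl; simp [sn]

theorem sn_pos {v : ℂ} (h : v ≠ 0) : 0 < sn v :=
  lt_of_le_of_ne (sn_nonneg v) (fun h' => h (sn_eq_zero.1 h'.symm))

theorem sn_mul {t : ℝ} (ht : 0 ≤ t) (v : ℂ) : sn ((t : ℂ) * v) = t * sn v := by
  simp only [sn, re_ofReal_mul, im_ofReal_mul, abs_mul, abs_of_nonneg ht]
  rw [mul_max_of_nonneg _ _ ht]

/-- the planar part of the modified map -/
theorem exists_planar {r κ : ℝ} (hr : 0 < r) (hκ : 0 < κ) {q μ : ℂ → ℂ}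
    (hμ : ContinuousOn μ {v | sn v = r}) (hq : ∀ v, sn v = r → q v = v * exp (μ v)) :
    ∃ Φ : ℂ → ℂ, ContinuousOn Φ {v | sn v ≤ r} ∧ (∀ v, sn v = r → Φ v = q v) ∧
      (∀ v, sn v ≤ r / 2 → Φ v = κ * v) ∧ (∀ v, sn v ≤ r → (Φ v = 0 ↔ v = 0)) ∧
      ∀ M, (∀ v, sn v = r → ‖q v‖ ≤ M) → κ * (2 * r) ≤ M → ∀ v, sn v ≤ r → ‖Φ v‖ ≤ M := by
  classical
  set χ : ℝ → ℝ := fun s => 2 * s / r - 1 with hχ
  set ζ : ℂ → ℂ := fun v => ((r / sn v : ℝ) : ℂ) * v with hζ
  set Ψ : ℂ → ℂ := fun v =>
    v * exp (((χ (sn v) : ℝ) : ℂ) * μ (ζ v) + (((1 - χ (sn v)) * Real.log κ : ℝ) : ℂ)) with hΨ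
  have hζs : ∀ v, v ≠ 0 → sn (ζ v) = r := by
    intro v hv
    have h1 := sn_pos hv
    simp only [hζ]
    rw [sn_mul (by positivity)]
    field_simp
  have hne : ∀ v, r / 2 ≤ sn v → v ≠ 0 := by
    rintro v hv rfl
    have : sn 0 = 0 := sn_eq_zero.2 rfl
    rw [this] at hv; linarith
  have hζc : ContinuousOn ζ {v | r / 2 ≤ sn v} := by
    apply ContinuousOn.mul _ continuousOn_id
    apply continuous_ofReal.comp_continuousOn
    apply continuousOn_const.div continuous_sn.continuousOn
    intro v hv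
    exact (sn_pos (hne v hv)).ne'
  have hΨc : ContinuousOn Ψ {v | r / 2 ≤ sn v} := by
    apply continuousOn_id.mul
    apply continuous_exp.comp_continuousOn
    apply ContinuousOn.add
    · apply ContinuousOn.mul
      · apply Continuous.continuousOn
        simp only [hχ]
        have := continuous_sn
        fun_prop
      · exact hμ.comp hζc (fun v hv => hζs v (hne v hv))
    · apply Continuous.continuousOn
      simp only [hχ]
      have := continuous_sn
      fun_prop
  have hΨh : ∀ v, sn v = r / 2 → Ψ v = κ * v := by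
    intro v hv
    have h1 : χ (sn v) = 0 := by simp only [hχ, hv]; field_simp; ring
    simp only [hΨ, h1]
    have : (((0 : ℝ) : ℂ) * μ (ζ v) + (((1 - 0) * Real.log κ : ℝ) : ℂ)) = (Real.log κ : ℂ) := by
      push_cast; ring
    rw [this, ← ofReal_exp, Real.exp_log hκ, mul_comm]
  set Φ : ℂ → ℂ := fun v => if sn v ≤ r / 2 then κ * v else Ψ v with hΦ
  have hΦ1 : ∀ v, sn v ≤ r / 2 → Φ v = κ * v := fun v hv => by simp only [hΦ, if_pos hv]
  have hΦ2 : ∀ v, r / 2 ≤ sn v → Φ v = Ψ v := by
    intro v hv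
    simp only [hΦ]
    split_ifs with h
    · rw [hΨh v (le_antisymm h hv)]
    · rfl
  have hr2 : ∀ v, sn v = r → r / 2 ≤ sn v := fun v hv => by rw [hv]; linarith
  have hexp : ∀ v, r / 2 ≤ sn v → sn v ≤ r →
      ‖Ψ v‖ ≤ max ‖q (ζ v)‖ (κ * (2 * r)) := by
    intro v hv hvr
    have hv0 := hne v hv
    have hs := sn_pos hv0
    have hχ0 : 0 ≤ χ (sn v) := by
      simp only [hχ]
      have : 1 ≤ 2 * sn v / r := by rw [le_div_iff₀ hr]; linarith
      linarith
    have hχ1 : χ (sn v) ≤ 1 := by
      simp only [hχ]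
      have : 2 * sn v / r ≤ 2 := by rw [div_le_iff₀ hr]; linarith
      linarith
    have hq' : ‖q (ζ v)‖ = ‖ζ v‖ * Real.exp (μ (ζ v)).re := by
      rw [hq _ (hζs v hv0), norm_mul, norm_exp]
    have hvζ : ‖v‖ ≤ ‖ζ v‖ := by
      simp only [hζ]
      rw [norm_mul, norm_real, Real.norm_of_nonneg (by positivity)]
      have : 1 ≤ r / sn v := by rw [le_div_iff₀ hs]; linarith
      nlinarith [norm_nonneg v]
    have hζn : ‖ζ v‖ ≤ 2 * r := by
      have := norm_le_sn (ζ v); rw [hζs v hv0] at this; exact this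
    have h1 : ‖Ψ v‖ = ‖v‖ * Real.exp (χ (sn v) * (μ (ζ v)).re + (1 - χ (sn v)) * Real.log κ) := by
      simp only [hΨ]
      rw [norm_mul, norm_exp, add_re, re_ofReal_mul, ofReal_re]
    rw [h1, hq']
    rcases le_total (μ (ζ v)).re (Real.log κ) with h | h
    · refine le_trans ?_ (le_max_right _ _)
      have h2 : χ (sn v) * (μ (ζ v)).re + (1 - χ (sn v)) * Real.log κ ≤ Real.log κ := by nlinarith
      calc _ ≤ ‖v‖ * Real.exp (Real.log κ) := by gcongr
        _ = ‖v‖ * κ := by rw [Real.exp_log hκ]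
        _ ≤ κ * (2 * r) := by nlinarith
    · refine le_trans ?_ (le_max_left _ _)
      have h2 : χ (sn v) * (μ (ζ v)).re + (1 - χ (sn v)) * Real.log κ ≤ (μ (ζ v)).re := by nlinarith
      gcongr
  refine ⟨Φ, ?_, ?_, hΦ1, ?_, ?_⟩
  · have h1 : ContinuousOn Φ {v | sn v ≤ r / 2} :=
      (Continuous.continuousOn (by fun_prop : Continuous fun v : ℂ => (κ : ℂ) * v)).congr
        (fun v hv => hΦ1 v hv)
    have h2 : ContinuousOn Φ {v | r / 2 ≤ sn v} := hΨc.congr (fun v hv => hΦ2 v hv)
    have h3 := h1.union_of_isClosed h2 (isClosed_le continuous_sn continuous_const)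
      (isClosed_le continuous_const continuous_sn)
    refine h3.mono (fun v _ => ?_)
    rcases le_total (sn v) (r / 2) with h | h
    · exact Or.inl h
    · exact Or.inr h
  · intro v hv
    have hv0 := hne v (hr2 v hv)
    rw [hΦ2 v (hr2 v hv), hq v hv]
    have h1 : χ (sn v) = 1 := by simp only [hχ, hv]; field_simp; ring
    have h2 : ζ v = v := by simp only [hζ, hv]; rw [div_self hr.ne']; simp
    simp only [hΨ, h1, h2]
    congr 2
    push_cast; ring
  · intro v hv
    constructor
    · intro h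
      by_contra hv0
      rcases le_total (sn v) (r / 2) with h1 | h1
      · rw [hΦ1 v h1] at h
        rcases mul_eq_zero.1 h with h | h
        · exact hκ.ne' (by exact_mod_cast h)
        · exact hv0 h
      · rw [hΦ2 v h1] at h
        simp only [hΨ] at h
        rcases mul_eq_zero.1 h with h | h
        · exact hv0 h
        · exact exp_ne_zero _ h
    · rintro rfl
      rw [hΦ1 0 (by rw [sn_eq_zero.2 rfl]; linarith), mul_zero]
  · intro M hM hκM v hv
    rcases le_total (sn v) (r / 2) with h1 | h1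
    · rw [hΦ1 v h1, norm_mul, norm_real, Real.norm_of_nonneg hκ.le]
      have := norm_le_sn v
      calc κ * ‖v‖ ≤ κ * (2 * r) := by gcongr; linarith
        _ ≤ M := hκM
    · rw [hΦ2 v h1]
      exact (hexp v h1 hv).trans (max_le (hM _ (hζs v (hne v h1))) hκM)

/-- a real function on the boundary of a square extends to the square, constant near the centre -/
theorem exists_height {r : ℝ} (hr : 0 < r) {z : ℂ → ℝ} (hz : ContinuousOn z {v | sn v = r}) :
    ∃ Z : ℂ → ℝ, ContinuousOn Z {v | sn v ≤ r} ∧ (∀ v, sn v = r → Z v = z v) ∧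
      (∀ v, sn v ≤ r / 2 → Z v = 0) ∧
      ∀ M, (∀ v, sn v = r → |z v| ≤ M) → ∀ v, sn v ≤ r → |Z v| ≤ M := by
  classical
  set χ : ℝ → ℝ := fun s => 2 * s / r - 1 with hχ
  set ζ : ℂ → ℂ := fun v => ((r / sn v : ℝ) : ℂ) * v with hζ
  have hζs : ∀ v, v ≠ 0 → sn (ζ v) = r := by
    intro v hv
    have h1 := sn_pos hv
    simp only [hζ]
    rw [sn_mul (by positivity)]
    field_simp
  have hne : ∀ v, r / 2 ≤ sn v → v ≠ 0 := by
    rintro v hv rfl
    have : sn 0 = 0 := sn_eq_zero.2 rfl
    rw [this] at hv; linarith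
  have hζc : ContinuousOn ζ {v | r / 2 ≤ sn v} := by
    apply ContinuousOn.mul _ continuousOn_id
    apply continuous_ofReal.comp_continuousOn
    apply continuousOn_const.div continuous_sn.continuousOn
    intro v hv
    exact (sn_pos (hne v hv)).ne'
  set Z : ℂ → ℝ := fun v => if sn v ≤ r / 2 then 0 else χ (sn v) * z (ζ v) with hZ
  have hZ1 : ∀ v, sn v ≤ r / 2 → Z v = 0 := fun v hv => by simp only [hZ, if_pos hv]
  have hZ2 : ∀ v, r / 2 ≤ sn v → Z v = χ (sn v) * z (ζ v) := by
    intro v hv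
    simp only [hZ]
    split_ifs with h
    · have h1 : sn v = r / 2 := le_antisymm h hv
      have h2 : χ (sn v) = 0 := by simp only [hχ, h1]; field_simp; ring
      rw [h2, zero_mul]
    · rfl
  refine ⟨Z, ?_, ?_, hZ1, ?_⟩
  · have h1 : ContinuousOn Z {v | sn v ≤ r / 2} := continuousOn_const.congr (fun v hv => hZ1 v hv)
    have h2 : ContinuousOn Z {v | r / 2 ≤ sn v} := by
      refine ContinuousOn.congr ?_ (fun v hv => hZ2 v hv)
      apply ContinuousOn.mul
      · apply Continuous.continuousOn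
        simp only [hχ]
        have := continuous_sn
        fun_prop
      · exact hz.comp hζc (fun v hv => hζs v (hne v hv))
    have h3 := h1.union_of_isClosed h2 (isClosed_le continuous_sn continuous_const)
      (isClosed_le continuous_const continuous_sn)
    refine h3.mono (fun v _ => ?_)
    rcases le_total (sn v) (r / 2) with h | h
    · exact Or.inl h
    · exact Or.inr h
  · intro v hv
    have h0 : r / 2 ≤ sn v := by rw [hv]; linarith
    have h1 : χ (sn v) = 1 := by simp only [hχ, hv]; field_simp; ring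
    have h2 : ζ v = v := by simp only [hζ, hv]; rw [div_self hr.ne']; simp
    rw [hZ2 v h0, h1, h2, one_mul]
  · intro M hM v hv
    rcases le_total (sn v) (r / 2) with h1 | h1
    · rw [hZ1 v h1, abs_zero]
      have h2 : sn (r : ℂ) = r := by simp [sn, abs_of_pos hr, hr.le]
      exact (abs_nonneg _).trans (hM _ h2)
    · rw [hZ2 v h1, abs_mul]
      have hχ0 : 0 ≤ χ (sn v) := by
        simp only [hχ]
        have : 1 ≤ 2 * sn v / r := by rw [le_div_iff₀ hr]; linarith
        linarith
      have hχ1 : χ (sn v) ≤ 1 := by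
        simp only [hχ]
        have : 2 * sn v / r ≤ 2 := by rw [div_le_iff₀ hr]; linarith
        linarith
      rw [abs_of_nonneg hχ0]
      have := hM _ (hζs v (hne v h1))
      calc χ (sn v) * |z (ζ v)| ≤ 1 * |z (ζ v)| := by gcongr
        _ ≤ M := by rw [one_mul]; exact this

/-- the point of the plane through `y₀` in the directions `i`, `j` -/
noncomputable def pt (y0 : Fin 3 → ℝ) (i j : Fin 3) (v : ℂ) : Fin 3 → ℝ :=
  fun c => if c = i then y0 i + v.re else if c = j then y0 j + v.im else y0 c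

/-- projection off the axis through `x₀`, as a complex number; `ω = ±1` is the orientation -/
noncomputable def pr (x0 : Fin 3 → ℝ) (a b : Fin 3) (ω : ℝ) (x : Fin 3 → ℝ) : ℂ :=
  ⟨x a - x0 a, ω * (x b - x0 b)⟩

theorem continuous_pt (y0 : Fin 3 → ℝ) (i j : Fin 3) : Continuous (pt y0 i j) := by
  unfold pt
  apply continuous_pi
  intro c
  split_ifs <;> fun_prop

theorem continuous_pr (x0 : Fin 3 → ℝ) (a b : Fin 3) (ω : ℝ) : Continuous (pr x0 a b ω) := by
  have : pr x0 a b ω = fun x => ((x a - x0 a : ℝ) : ℂ) + ((ω * (x b - x0 b) : ℝ) : ℂ) * I := by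
    funext x
    apply Complex.ext <;> simp [pr]
  rw [this]
  fun_prop

theorem pt_zero (y0 : Fin 3 → ℝ) (i j : Fin 3) : pt y0 i j 0 = y0 := by
  funext c
  simp only [pt, zero_re, zero_im, add_zero]
  split_ifs with h1 h2
  · rw [h1]
  · rw [h2]
  · rfl

theorem norm_pr_le {x0 : Fin 3 → ℝ} {a b : Fin 3} {ω : ℝ} (hω : ω = 1 ∨ ω = -1)
    (x : Fin 3 → ℝ) : ‖pr x0 a b ω x‖ ≤ 2 * ‖x - x0‖ := by
  have h1 := norm_le_abs_re_add_abs_im (pr x0 a b ω x)
  have h2 : |(pr x0 a b ω x).re| ≤ ‖x - x0‖ := by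
    have := norm_le_pi_norm (x - x0) a
    simpa [pr, Real.norm_eq_abs] using this
  have h3 : |(pr x0 a b ω x).im| ≤ ‖x - x0‖ := by
    have := norm_le_pi_norm (x - x0) b
    rcases hω with rfl | rfl
    · simpa [pr, Real.norm_eq_abs] using this
    · have h4 : |(pr x0 a b (-1) x).im| = |x b - x0 b| := by simp [pr, abs_sub_comm]
      rw [h4]; simpa [Real.norm_eq_abs] using this
  linarith

/-- **Local modification.** -/
theorem local_mod {h : (Fin 3 → ℝ) → Fin 3 → ℝ} {x0 y0 : Fin 3 → ℝ} {i j a b k : Fin 3}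
    (hab : a ≠ b) (hka : k ≠ a) (hkb : k ≠ b) {R : ℝ} (hR : 0 < R) {ω : ℝ} (hω : ω = 1 ∨ ω = -1)
    {lam : ℂ → ℂ} (hlam : ContinuousOn lam {v | v ≠ 0 ∧ ‖v‖ ≤ R})
    (hW : ∀ v, v ≠ 0 → ‖v‖ ≤ R → pr x0 a b ω (h (pt y0 i j v)) = v * exp (lam v))
    (hc : ContinuousOn (fun v => h (pt y0 i j v)) {v | ‖v‖ ≤ R}) (h0 : h y0 = x0)
    {δ : ℝ} (hδ : 0 < δ) :
    ∃ r0 > 0, ∀ r, 0 < r → r ≤ r0 → ∀ p : ℂ, ‖p‖ < r →
      ∃ g : ℂ → Fin 3 → ℝ, ContinuousOn g {v | sn v ≤ r} ∧
        (∀ v, sn v = r → g v = h (pt y0 i j (p + v))) ∧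
        (∀ v, sn v ≤ r → ‖g v - x0‖ ≤ δ) ∧
        (∀ v, sn v ≤ r → ((g v a = x0 a ∧ g v b = x0 b) ↔ v = 0)) ∧
        ∃ κ > 0, ∀ v, sn v ≤ r / 2 →
          g v a = x0 a + κ * v.re ∧ g v b = x0 b + ω * κ * v.im ∧ g v k = x0 k := by
  classical
  have hω2 : ω * ω = 1 := by rcases hω with rfl | rfl <;> norm_num
  have hcov : ∀ c : Fin 3, c ≠ a → c ≠ b → c = k := by
    intro c hca hcb
    fin_cases a <;> fin_cases b <;> fin_cases k <;> fin_cases c <;> simp_all
  -- the radius
  have h1 : ContinuousWithinAt (fun v => h (pt y0 i j v)) {v | ‖v‖ ≤ R} 0 :=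
    hc 0 (by simp only [Set.mem_ofPred_eq, norm_zero]; exact hR.le)
  obtain ⟨ρ, hρ, hρ'⟩ := Metric.continuousWithinAt_iff.1 h1 (δ / 4) (by positivity)
  set r0 : ℝ := min (R / 3) (ρ / 4) with hr0
  have hr0p : 0 < r0 := by rw [hr0]; positivity
  have hclose : ∀ w : ℂ, ‖w‖ ≤ 3 * r0 → ‖h (pt y0 i j w) - x0‖ ≤ δ / 4 := by
    intro w hw
    have h2 : 3 * r0 ≤ R := by
      have := min_le_left (R / 3) (ρ / 4); rw [← hr0] at this; linarith
    have h3 : 3 * r0 < ρ := by
      have := min_le_right (R / 3) (ρ / 4); rw [← hr0] at this; linarith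
    have h4 := hρ' (x := w) (by simp only [Set.mem_ofPred_eq]; linarith)
      (by rw [dist_zero_right]; linarith)
    simp only [pt_zero, h0] at h4
    rw [dist_eq_norm] at h4
    exact h4.le
  refine ⟨r0, hr0p, fun r hr hrr0 p hp => ?_⟩
  have hball : ∀ v, sn v ≤ r → ‖p + v‖ ≤ 3 * r0 := by
    intro v hv
    have := norm_le_sn v
    have := norm_add_le p v
    linarith
  have hballR : ∀ v, sn v ≤ r → ‖p + v‖ ≤ R := by
    intro v hv
    have h2 : 3 * r0 ≤ R := by
      have := min_le_left (R / 3) (ρ / 4); rw [← hr0] at this; linarith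
    exact (hball v hv).trans h2
  have hv0 : ∀ v, sn v = r → v ≠ 0 := by
    rintro v hv rfl
    rw [sn_eq_zero.2 rfl] at hv; linarith
  have hpv : ∀ v, sn v = r → ‖p / v‖ < 1 := by
    intro v hv
    rw [norm_div, div_lt_one (norm_pos_iff.2 (hv0 v hv))]
    have := sn_le_norm v
    linarith
  have hpvne : ∀ v, sn v = r → p + v ≠ 0 := by
    intro v hv h
    have h2 : p = -v := eq_neg_of_add_eq_zero_left h
    have h3 := hpv v hv
    rw [h2, neg_div, div_self (hv0 v hv)] at h3
    simp at h3
  have hslit : ∀ v, sn v = r → 1 + p / v ∈ slitPlane := by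
    intro v hv
    left
    have h3 := hpv v hv
    have h4 := abs_re_le_norm (p / v)
    have h5 := neg_abs_le (p / v).re
    simp only [add_re, one_re]
    linarith
  set μ : ℂ → ℂ := fun v => lam (p + v) + log (1 + p / v) with hμ
  have hμc : ContinuousOn μ {v | sn v = r} := by
    apply ContinuousOn.add
    · apply hlam.comp (by fun_prop)
      intro v hv
      exact ⟨hpvne v hv, hballR v (le_of_eq hv)⟩
    · intro v hv
      apply ContinuousAt.continuousWithinAt
      refine ContinuousAt.clog (f := fun v => 1 + p / v) ?_ (hslit v hv)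
      apply continuousAt_const.add
      exact continuousAt_const.div continuousAt_id (hv0 v hv)
  set q : ℂ → ℂ := fun v => pr x0 a b ω (h (pt y0 i j (p + v))) with hq
  have hqμ : ∀ v, sn v = r → q v = v * exp (μ v) := by
    intro v hv
    have h2 : 1 + p / v ≠ 0 := slitPlane_ne_zero (hslit v hv)
    simp only [hq, hμ]
    rw [hW _ (hpvne v hv) (hballR v (le_of_eq hv)), exp_add, exp_log h2]
    have := hv0 v hv
    field_simp
    ring
  set κ : ℝ := δ / (4 * r) with hκ
  have hκp : 0 < κ := by positivity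
  obtain ⟨Φ, hΦc, hΦq, hΦκ, hΦ0, hΦM⟩ := exists_planar hr hκp hμc hqμ
  have hcz : ContinuousOn (fun v => h (pt y0 i j (p + v))) {v | sn v ≤ r} :=
    hc.comp (by fun_prop) (fun v hv => hballR v hv)
  obtain ⟨Z, hZc, hZz, hZ0, hZM⟩ := exists_height hr
    (z := fun v => h (pt y0 i j (p + v)) k - x0 k) (by
      apply ContinuousOn.sub _ continuousOn_const
      have := hcz.mono (fun v (hv : sn v = r) => (le_of_eq hv : sn v ≤ r))
      exact (continuous_apply k).comp_continuousOn this)
  have hqM : ∀ v, sn v = r → ‖q v‖ ≤ δ / 2 := by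
    intro v hv
    have h2 := norm_pr_le (x0 := x0) (a := a) (b := b) hω (h (pt y0 i j (p + v)))
    have h3 := hclose _ (hball v (le_of_eq hv))
    simp only [hq]; linarith
  have hκM : κ * (2 * r) ≤ δ / 2 := by
    rw [hκ]; field_simp; norm_num
  have hΦb := hΦM (δ / 2) hqM hκM
  have hZb := hZM (δ / 2) (by
    intro v hv
    have h3 := hclose _ (hball v (le_of_eq hv))
    have h4 := norm_le_pi_norm (h (pt y0 i j (p + v)) - x0) k
    rw [Pi.sub_apply, Real.norm_eq_abs] at h4
    linarith)
  set g : ℂ → Fin 3 → ℝ := fun v c =>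
    if c = a then x0 a + (Φ v).re else if c = b then x0 b + ω * (Φ v).im else x0 k + Z v with hg
  have hga : ∀ v, g v a = x0 a + (Φ v).re := fun v => by simp [hg]
  have hgb : ∀ v, g v b = x0 b + ω * (Φ v).im := fun v => by simp [hg, hab.symm]
  have hgk : ∀ v, g v k = x0 k + Z v := fun v => by simp [hg, hka, hkb]
  refine ⟨g, ?_, ?_, ?_, ?_, κ, hκp, ?_⟩
  · apply continuousOn_pi.2
    intro c
    by_cases hca : c = a
    · subst hca
      simp only [hga]
      exact continuousOn_const.add (continuous_re.comp_continuousOn hΦc)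
    · by_cases hcb : c = b
      · subst hcb
        simp only [hgb]
        exact continuousOn_const.add
          (continuousOn_const.mul (continuous_im.comp_continuousOn hΦc))
      · have := hcov c hca hcb
        subst this
        simp only [hgk]
        exact continuousOn_const.add hZc
  · intro v hv
    funext c
    by_cases hca : c = a
    · subst hca
      rw [hga, hΦq v hv]; simp [hq, pr]
    · by_cases hcb : c = b
      · subst hcb
        rw [hgb, hΦq v hv]; simp only [hq, pr]
        rw [← mul_assoc, hω2]; ring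
      · have := hcov c hca hcb
        subst this
        rw [hgk, hZz v hv]; ring
  · intro v hv
    rw [pi_norm_le_iff_of_nonneg hδ.le]
    intro c
    rw [Pi.sub_apply, Real.norm_eq_abs]
    by_cases hca : c = a
    · subst hca
      rw [hga]
      have := abs_re_le_norm (Φ v)
      have := hΦb v hv
      rw [add_sub_cancel_left]; linarith
    · by_cases hcb : c = b
      · subst hcb
        rw [hgb]
        have := abs_im_le_norm (Φ v)
        have := hΦb v hv
        rw [add_sub_cancel_left, abs_mul]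
        have h3 : |ω| = 1 := by rcases hω with rfl | rfl <;> simp
        rw [h3, one_mul]; linarith
      · have := hcov c hca hcb
        subst this
        rw [hgk, add_sub_cancel_left]
        have := hZb v hv
        linarith
  · intro v hv
    rw [hga, hgb, ← hΦ0 v hv]
    constructor
    · rintro ⟨h2, h3⟩
      have h4 : (Φ v).re = 0 := by linarith
      have h5 : ω * (Φ v).im = 0 := by linarith
      have h6 : (Φ v).im = 0 := by
        have : ω * (ω * (Φ v).im) = 0 := by rw [h5, mul_zero]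
        rw [← mul_assoc, hω2, one_mul] at this; exact this
      exact Complex.ext h4 h6
    · intro h2
      rw [h2]; simp
  · intro v hv
    rw [hga, hgb, hgk, hΦκ v hv, hZ0 v hv]
    refine ⟨?_, ?_, by ring⟩
    · rw [re_ofReal_mul]
    · rw [im_ofReal_mul]; ring

end P073.PW86
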