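import Vale.Agent.P073.PW86.LM

/-!
# P073, block PW: local modification, in the coordinates `ℂ × ℝ`
-/

open Set Topology Complex
open scoped ComplexConjugate

namespace P073.PW86

/-- planar part, both orientations -/
theorem exists_planar' {r κ : ℝ} (hr : 0 < r) (hκ : 0 < κ) {q lam : ℂ → ℂ} {d : ℤ}
    (hd : d = 1 ∨ d = -1) (hlam : ContinuousOn lam {v | sn v = r})
    (hq : ∀ v, sn v = r → q v = v ^ d * exp (lam v)) :
    ∃ Φ : ℂ → ℂ, ContinuousOn Φ {v | sn v ≤ r} ∧ (∀ v, sn v = r → Φ v = q v) ∧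
      ((∀ v, sn v ≤ r / 2 → Φ v = κ * v) ∨ (∀ v, sn v ≤ r / 2 → Φ v = κ * conj v)) ∧
      (∀ v, sn v ≤ r → (Φ v = 0 ↔ v = 0)) ∧
      ∀ M, (∀ v, sn v = r → ‖q v‖ ≤ M) → κ * (2 * r) ≤ M → ∀ v, sn v ≤ r → ‖Φ v‖ ≤ M := by
  have hne : ∀ v, sn v = r → v ≠ 0 := by
    rintro v hv rfl
    rw [sn_eq_zero.2 rfl] at hv; linarith
  rcases hd with rfl | rfl
  · obtain ⟨Φ, h1, h2, h3, h4, h5⟩ := exists_planar (q := q) hr hκ hlam
      (fun v hv => by rw [hq v hv, zpow_one])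
    exact ⟨Φ, h1, h2, Or.inl h3, h4, h5⟩
  · obtain ⟨Φ, h1, h2, h3, h4, h5⟩ := exists_planar (q := fun v => conj (q v))
      (μ := fun v => conj (lam v) - (Real.log (normSq v) : ℂ)) hr hκ (by
        apply ContinuousOn.sub
        · exact continuous_conj.comp_continuousOn hlam
        · apply continuous_ofReal.comp_continuousOn
          intro v hv
          apply ContinuousAt.continuousWithinAt
          apply ContinuousAt.log continuous_normSq.continuousAt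
          exact (normSq_pos.2 (hne v hv)).ne') (by
        intro v hv
        have h1 : 0 < normSq v := normSq_pos.2 (hne v hv)
        have h1' : ((normSq v : ℝ) : ℂ) ≠ 0 := by exact_mod_cast h1.ne'
        have h2 : conj v ≠ 0 := by simpa using hne v hv
        have h0 := hne v hv
        rw [hq v hv, map_mul, zpow_neg_one, map_inv₀, ← exp_conj, exp_sub, ← ofReal_exp,
          Real.exp_log h1]
        have h3 : ((normSq v : ℝ) : ℂ) = v * conj v := (mul_conj v).symm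
        rw [h3]
        field_simp)
    refine ⟨fun v => conj (Φ v), continuous_conj.comp_continuousOn h1, ?_, Or.inr ?_, ?_, ?_⟩
    · intro v hv; simp only; rw [h2 v hv, conj_conj]
    · intro v hv; simp only; rw [h3 v hv, map_mul, conj_ofReal]
    · intro v hv; rw [map_eq_zero]; exact h4 v hv
    · intro M hM hκM v hv
      rw [norm_conj]
      exact h5 M (fun v hv => by rw [norm_conj]; exact hM v hv) hκM v hv

/-- **Local modification**, in `ℂ × ℝ`. -/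
theorem local_mod2 {H : ℂ → ℂ × ℝ} {R : ℝ} (hR : 0 < R) (hc : ContinuousOn H {v | ‖v‖ ≤ R})
    (h0 : H 0 = 0) {d : ℤ} (hd : d = 1 ∨ d = -1) {lam : ℂ → ℂ}
    (hlam : ContinuousOn lam {v | v ≠ 0 ∧ ‖v‖ ≤ R})
    (hW : ∀ v, v ≠ 0 → ‖v‖ ≤ R → (H v).1 = v ^ d * exp (lam v)) {δ : ℝ} (hδ : 0 < δ) :
    ∃ r0 > 0, ∀ r, 0 < r → r ≤ r0 →
      ∃ g : ℂ → ℂ × ℝ, ContinuousOn g {v | sn v ≤ r} ∧
        (∀ v, sn v = r → g v = H v) ∧ (∀ v, sn v ≤ r → ‖g v‖ ≤ δ) ∧
        (∀ v, sn v ≤ r → ‖H v‖ ≤ δ) ∧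
        (∀ v, sn v ≤ r → ((g v).1 = 0 ↔ v = 0)) ∧
        ∃ κ : ℝ, 0 < κ ∧ ((∀ v, sn v ≤ r / 2 → g v = ((κ : ℂ) * v, 0)) ∨
          (∀ v, sn v ≤ r / 2 → g v = ((κ : ℂ) * conj v, 0))) := by
  have h1 : ContinuousWithinAt H {v | ‖v‖ ≤ R} 0 := hc 0 (by simpa using hR.le)
  obtain ⟨ρ, hρ, hρ'⟩ := Metric.continuousWithinAt_iff.1 h1 (δ / 2) (by positivity)
  set r0 : ℝ := min (R / 3) (ρ / 4) with hr0
  have hr0p : 0 < r0 := by rw [hr0]; positivity
  have hb : ∀ r, r ≤ r0 → ∀ v, sn v ≤ r → ‖v‖ ≤ R ∧ ‖H v‖ ≤ δ / 2 := by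
    intro r hr v hv
    have h2 := norm_le_sn v
    have h3 := min_le_left (R / 3) (ρ / 4)
    have h4 := min_le_right (R / 3) (ρ / 4)
    rw [← hr0] at h3 h4
    have h5 : 0 ≤ sn v := sn_nonneg v
    refine ⟨by linarith, ?_⟩
    have h6 := hρ' (x := v) (by show ‖v‖ ≤ R; linarith) (by rw [dist_zero_right]; linarith)
    rw [h0, dist_zero_right] at h6
    exact h6.le
  refine ⟨r0, hr0p, fun r hr hrr0 => ?_⟩
  have hv0 : ∀ v, sn v = r → v ≠ 0 := by
    rintro v hv rfl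
    rw [sn_eq_zero.2 rfl] at hv; linarith
  set κ : ℝ := δ / (4 * r) with hκ
  have hκp : 0 < κ := by positivity
  have hκM : κ * (2 * r) ≤ δ / 2 := by
    rw [hκ]; field_simp; norm_num
  obtain ⟨Φ, hΦc, hΦq, hΦκ, hΦ0, hΦM⟩ := exists_planar' (q := fun v => (H v).1) hr hκp hd
    (hlam.mono (fun v (hv : sn v = r) => ⟨hv0 v hv, (hb r hrr0 v (le_of_eq hv)).1⟩))
    (fun v hv => hW v (hv0 v hv) (hb r hrr0 v (le_of_eq hv)).1)
  have hcr : ContinuousOn H {v | sn v ≤ r} := hc.mono (fun v hv => (hb r hrr0 v hv).1)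
  obtain ⟨Z, hZc, hZz, hZ0, hZM⟩ := exists_height hr (z := fun v => (H v).2)
    (continuous_snd.comp_continuousOn
      (hcr.mono (fun v (hv : sn v = r) => (le_of_eq hv : sn v ≤ r))))
  have hΦb := hΦM (δ / 2) (fun v hv => (norm_fst_le (H v)).trans (hb r hrr0 v (le_of_eq hv)).2) hκM
  have hZb := hZM (δ / 2) (fun v hv => (norm_snd_le (H v)).trans (hb r hrr0 v (le_of_eq hv)).2)
  refine ⟨fun v => (Φ v, Z v), hΦc.prodMk hZc, ?_, ?_, ?_, ?_, κ, hκp, ?_⟩
  · intro v hv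
    exact Prod.ext (hΦq v hv) (hZz v hv)
  · intro v hv
    rw [Prod.norm_def]
    refine max_le ?_ ?_
    · exact (hΦb v hv).trans (by linarith)
    · exact (hZb v hv).trans (by linarith)
  · intro v hv
    exact (hb r hrr0 v hv).2.trans (by linarith)
  · intro v hv; exact hΦ0 v hv
  · rcases hΦκ with h | h
    · exact Or.inl (fun v hv => by simp only; rw [h v hv, hZ0 v hv])
    · exact Or.inr (fun v hv => by simp only; rw [h v hv, hZ0 v hv])

end P073.PW86
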