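import Mathlib.Analysis.Complex.CoveringMap
import Mathlib.Analysis.Convex.Contractible
import Mathlib.Analysis.SpecialFunctions.Complex.LogDeriv
import Mathlib.Topology.Connected.LocallyPathConnected
import Mathlib.Topology.Homotopy.Lifting
import Mathlib.AlgebraicTopology.FundamentalGroupoid.SimplyConnected
import Mathlib.Analysis.LocallyConvex.WithSeminorms

/-!
# P073, block PW: continuous logarithms

`exists_log` : a continuous function without zeros on a simply connected space has a continuous
logarithm; `exists_log_factor` : on a punctured disc it is `v ^ d * exp (lam v)`.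
-/

open Set Topology Complex

namespace P073.PW86

/-- a continuous function without zeros has a continuous logarithm -/
theorem exists_log {E : Type*} [TopologicalSpace E] [SimplyConnectedSpace E]
    [LocallyPathConnectedSpace E] (f : E → ℂ) (hf : Continuous f) (h0 : ∀ x, f x ≠ 0) :
    ∃ L : E → ℂ, Continuous L ∧ ∀ x, exp (L x) = f x := by
  obtain ⟨a⟩ : Nonempty E := inferInstance
  obtain ⟨F, ⟨_, hF⟩, _⟩ := isCoveringMapOn_exp.existsUnique_continuousMap_lifts (⟨f, hf⟩ : C(E, ℂ))
    (a₀ := a) (e₀ := log (f a)) (by simpa using exp_log (h0 a)) (fun x => by simpa using h0 x)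
  exact ⟨F, F.continuous, fun x => congrFun hF x⟩

/-- an integer valued continuous function is constant on a preconnected set -/
theorem int_const {X : Type*} [TopologicalSpace X] {S : Set X} (hS : IsPreconnected S)
    {k : X → ℤ} (hk : ContinuousOn (fun x => (k x : ℝ)) S) {x y : X} (hx : x ∈ S) (hy : y ∈ S) :
    k x = k y := by
  have key : ∀ x ∈ S, ∀ y ∈ S, ¬ k x < k y := by
    intro x hx y hy hlt
    have h1 : ((k x : ℝ) + 1 / 2) ∈ Icc (k x : ℝ) (k y : ℝ) := by
      have : (k x : ℝ) + 1 ≤ k y := by exact_mod_cast hlt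
      constructor <;> linarith
    obtain ⟨z, _, hz⟩ := hS.intermediate_value hx hy hk h1
    have h2 : (2 * k z : ℤ) = 2 * k x + 1 := by
      have : (2 * k z : ℝ) = 2 * k x + 1 := by
        have := hz; simp only at this; linarith
      exact_mod_cast this
    omega
  rcases lt_trichotomy (k x) (k y) with h | h | h
  · exact absurd h (key x hx y hy)
  · exact h
  · exact absurd h (key y hy x hx)

/-- two continuous logarithms of the same function differ by a constant multiple of `2πi` -/
theorem log_diff {X : Type*} [TopologicalSpace X] {S : Set X} (hS : IsPreconnected S)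
    {L M : X → ℂ} (hL : ContinuousOn L S) (hM : ContinuousOn M S)
    (h : ∀ x ∈ S, exp (L x) = exp (M x)) :
    ∃ d : ℤ, ∀ x ∈ S, L x = M x + d * (2 * Real.pi * I) := by
  classical
  rcases S.eq_empty_or_nonempty with rfl | ⟨x0, hx0⟩
  · exact ⟨0, by simp⟩
  have h1 : ∀ x : X, ∃ n : ℤ, x ∈ S → L x = M x + n * (2 * Real.pi * I) := by
    intro x
    by_cases hx : x ∈ S
    · obtain ⟨n, hn⟩ := exp_eq_exp_iff_exists_int.1 (h x hx)
      exact ⟨n, fun _ => hn⟩
    · exact ⟨0, fun h => absurd h hx⟩
  choose k hk using h1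
  have hpi : (2 * Real.pi : ℝ) ≠ 0 := by positivity
  have hk' : ∀ x ∈ S, (k x : ℝ) = (L x - M x).im / (2 * Real.pi) := by
    intro x hx
    rw [hk x hx, add_sub_cancel_left]
    have : ((k x : ℂ) * (2 * Real.pi * I)) = ((k x * (2 * Real.pi) : ℝ) : ℂ) * I := by
      push_cast; ring
    rw [this, Complex.im_ofReal_mul]
    simp only [I_im, mul_one]
    field_simp
  have hcont : ContinuousOn (fun x => (k x : ℝ)) S := by
    refine ContinuousOn.congr (f := fun x => (L x - M x).im / (2 * Real.pi)) ?_ hk'
    exact (continuous_im.comp_continuousOn (hL.sub hM)).div_const _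
  refine ⟨k x0, fun x hx => ?_⟩
  rw [hk x hx, int_const hS hcont hx hx0]

/-- **Factor lemma**: a continuous function without zeros on a punctured disc. -/
theorem exists_log_factor {r : ℝ} (hr : 0 < r) {q : ℂ → ℂ}
    (hq : ContinuousOn q {v | v ≠ 0 ∧ ‖v‖ ≤ r}) (h0 : ∀ v, v ≠ 0 → ‖v‖ ≤ r → q v ≠ 0) :
    ∃ (d : ℤ) (lam : ℂ → ℂ), ContinuousOn lam {v | v ≠ 0 ∧ ‖v‖ ≤ r} ∧
      ∀ v, v ≠ 0 → ‖v‖ ≤ r → q v = v ^ d * exp (lam v) := by
  set ρ : ℂ → ℂ := fun w => ((min w.re (Real.log r) : ℝ) : ℂ) + (w.im : ℂ) * I with hρ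
  have hρc : Continuous ρ := by fun_prop
  have hρn : ∀ w, ‖exp (ρ w)‖ ≤ r := by
    intro w
    rw [norm_exp]
    have : (ρ w).re = min w.re (Real.log r) := by simp [hρ]
    rw [this]
    calc Real.exp (min w.re (Real.log r)) ≤ Real.exp (Real.log r) :=
          Real.exp_le_exp.2 (min_le_right _ _)
      _ = r := Real.exp_log hr
  have hmem : ∀ w, exp (ρ w) ∈ {v : ℂ | v ≠ 0 ∧ ‖v‖ ≤ r} := fun w => ⟨exp_ne_zero _, hρn w⟩
  have hqc : Continuous (fun w => q (exp (ρ w))) :=
    hq.comp_continuous (by fun_prop) hmem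
  obtain ⟨L, hLc, hL⟩ := exists_log (fun w => q (exp (ρ w))) hqc
    (fun w => h0 _ (hmem w).1 (hmem w).2)
  have hρs : ∀ w, ρ (w + 2 * Real.pi * I) = ρ w + 2 * Real.pi * I := by
    intro w
    simp only [hρ]
    have h1 : (w + 2 * Real.pi * I).re = w.re := by simp
    have h2 : (w + 2 * Real.pi * I).im = w.im + 2 * Real.pi := by simp
    rw [h1, h2]; push_cast; ring
  obtain ⟨d, hd⟩ := log_diff (S := (univ : Set ℂ)) isPreconnected_univ
    (L := fun w => L (w + 2 * Real.pi * I)) (M := L) (by fun_prop) hLc.continuousOn (by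
      intro w _
      rw [hL, hL, hρs, exp_add, exp_two_pi_mul_I, mul_one])
  simp only [mem_univ, true_implies] at hd
  set lt : ℂ → ℂ := fun w => L w - d * w with hlt
  have hltc : Continuous lt := by fun_prop
  have hper : ∀ w, lt (w + 2 * Real.pi * I) = lt w := by
    intro w; simp only [hlt]; rw [hd w]; ring
  have hperZ : ∀ (n : ℤ) w, lt (w + n * (2 * Real.pi * I)) = lt w := by
    have hn : ∀ (n : ℕ) w, lt (w + n * (2 * Real.pi * I)) = lt w := by
      intro n
      induction n with
      | zero => intro w; simp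
      | succ n ih =>
        intro w
        have : w + ((n + 1 : ℕ) : ℂ) * (2 * Real.pi * I)
            = (w + n * (2 * Real.pi * I)) + 2 * Real.pi * I := by push_cast; ring
        rw [this, hper, ih]
    intro n w
    obtain ⟨m, rfl | rfl⟩ := n.eq_nat_or_neg
    · simpa using hn m w
    · have := hn m (w + ((-(m : ℤ) : ℤ) : ℂ) * (2 * Real.pi * I))
      rw [← this]
      congr 1
      push_cast; ring
  have hlog : ∀ w w', exp w = exp w' → lt w = lt w' := by
    intro w w' h
    obtain ⟨n, hn⟩ := exp_eq_exp_iff_exists_int.1 h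
    rw [hn, hperZ]
  refine ⟨d, fun v => lt (log v), ?_, ?_⟩
  · intro v hv
    have h1 : ContinuousAt (fun v' : ℂ => lt (log (v' / v) + log v)) v := by
      apply ContinuousAt.comp hltc.continuousAt
      apply ContinuousAt.add _ continuousAt_const
      apply ContinuousAt.comp (g := log) (f := fun v' => v' / v)
      · apply continuousAt_clog
        rw [div_self hv.1]; exact one_mem_slitPlane
      · exact continuousAt_id.div_const v
    have h2 : (fun v' : ℂ => lt (log (v' / v) + log v)) =ᶠ[𝓝 v] fun v' => lt (log v') := by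
      filter_upwards [isOpen_ne.mem_nhds hv.1] with v' hv'
      apply hlog
      have hv'0 : v' ≠ 0 := hv'
      rw [exp_add, exp_log (div_ne_zero hv' hv.1), exp_log hv.1, exp_log hv'0,
        div_mul_cancel₀ _ hv.1]
    exact (h1.congr h2).continuousWithinAt
  · intro v hv hvr
    have hρv : ρ (log v) = log v := by
      simp only [hρ]
      have h1 : (log v).re = Real.log ‖v‖ := log_re v
      have h2 : min (log v).re (Real.log r) = (log v).re := by
        rw [h1]; exact min_eq_left (Real.log_le_log (norm_pos_iff.2 hv) hvr)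
      rw [h2]; exact re_add_im _
    simp only [hlt]
    have h3 : exp (L (log v)) = q v := by
      rw [hL, hρv, exp_log hv]
    rw [exp_sub, exp_int_mul, exp_log hv, h3]
    field_simp [zpow_ne_zero d hv]

end P073.PW86
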