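import Vale.Agent.P073.PW86.LM

/-!
# P073, block PW: from the exponent `d = ±1` to the orientation `ω = ±1`
-/

open Set Topology Complex
open scoped ComplexConjugate

namespace P073.PW86

theorem pr_neg (x0 : Fin 3 → ℝ) (a b : Fin 3) (x : Fin 3 → ℝ) :
    pr x0 a b (-1) x = conj (pr x0 a b 1 x) := by
  apply Complex.ext <;> simp [pr]

/-- exponent `±1` gives an orientation with exponent `1` -/
theorem exists_orient {h : (Fin 3 → ℝ) → Fin 3 → ℝ} {x0 y0 : Fin 3 → ℝ} {i j a b : Fin 3}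
    {R : ℝ} {d : ℤ} (hd : d = 1 ∨ d = -1) {lam : ℂ → ℂ}
    (hlam : ContinuousOn lam {v | v ≠ 0 ∧ ‖v‖ ≤ R})
    (hW : ∀ v, v ≠ 0 → ‖v‖ ≤ R → pr x0 a b 1 (h (pt y0 i j v)) = v ^ d * exp (lam v)) :
    ∃ ω : ℝ, (ω = 1 ∨ ω = -1) ∧ ∃ lam' : ℂ → ℂ, ContinuousOn lam' {v | v ≠ 0 ∧ ‖v‖ ≤ R} ∧
      ∀ v, v ≠ 0 → ‖v‖ ≤ R → pr x0 a b ω (h (pt y0 i j v)) = v * exp (lam' v) := by
  rcases hd with rfl | rfl
  · exact ⟨1, Or.inl rfl, lam, hlam, fun v hv hvR => by rw [hW v hv hvR, zpow_one]⟩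
  · refine ⟨-1, Or.inr rfl, fun v => conj (lam v) - (Real.log (normSq v) : ℂ), ?_, ?_⟩
    · apply ContinuousOn.sub
      · exact continuous_conj.comp_continuousOn hlam
      · apply continuous_ofReal.comp_continuousOn
        intro v hv
        apply ContinuousAt.continuousWithinAt
        apply ContinuousAt.log continuous_normSq.continuousAt
        exact (normSq_pos.2 hv.1).ne'
    · intro v hv hvR
      have h1 : 0 < normSq v := normSq_pos.2 hv
      have h1' : ((normSq v : ℝ) : ℂ) ≠ 0 := by exact_mod_cast h1.ne'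
      have h2 : conj v ≠ 0 := by simpa using hv
      rw [pr_neg, hW v hv hvR, map_mul, zpow_neg_one, map_inv₀, ← exp_conj, exp_sub, ← ofReal_exp,
        Real.exp_log h1]
      have h3 : ((normSq v : ℝ) : ℂ) = v * conj v := (mul_conj v).symm
      rw [h3]
      field_simp

end P073.PW86
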