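import Vale.Agent.P073.PLS.Defs

/-!
# P073, block (P-R): flat rectangles in a good plane, from `SpecPLS`
-/

open Set Metric Topology Filter

namespace P073.PW86

open Vale.Agent.P073.St (V IsInv IsHomeo)
open P073.PLS

/-- the part of a coordinate plane in an open set has no compact component -/
theorem ncpt_plane {Λ : Set V} (hΛ : IsOpen Λ) (k : Fin 3) (c : ℝ) {z : V} (hz : z ∈ Λ)
    (hzk : z k = c) : ¬ IsCompact (connectedComponentIn {z ∈ Λ | z k = c} z) := by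
  intro hcpt
  set F := {z ∈ Λ | z k = c} with hF
  set C := connectedComponentIn F z with hC
  obtain ⟨j, hj⟩ : ∃ j : Fin 3, j ≠ k := exists_ne k
  have hzF : z ∈ F := ⟨hz, hzk⟩
  have hne : C.Nonempty := ⟨z, mem_connectedComponentIn hzF⟩
  obtain ⟨y, hy, hmax⟩ := hcpt.exists_isMaxOn hne (continuous_apply j).continuousOn
  have hyF : y ∈ F := connectedComponentIn_subset F z hy
  obtain ⟨r, hr, hball⟩ := Metric.isOpen_iff.1 hΛ y hyF.1
  set L : ℝ → V := fun t => Function.update y j (y j + t) with hL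
  have hLc : Continuous L := by
    rw [hL]
    exact continuous_const.update j (continuous_const.add continuous_id)
  have hLF : L '' Icc 0 (r / 2) ⊆ F := by
    rintro _ ⟨t, ht, rfl⟩
    refine ⟨hball ?_, ?_⟩
    · rw [mem_ball, dist_eq_norm]
      refine lt_of_le_of_lt ?_ (show r / 2 < r by linarith)
      rw [pi_norm_le_iff_of_nonneg (by positivity)]
      intro i
      by_cases hi : i = j
      · subst hi
        simp only [hL, Pi.sub_apply, Function.update_self, add_sub_cancel_left, Real.norm_eq_abs]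
        rw [abs_of_nonneg ht.1]; exact ht.2
      · simp only [hL, Pi.sub_apply, Function.update_of_ne hi, sub_self, norm_zero]; positivity
    · show L t k = c
      simp only [hL, Function.update_of_ne hj.symm]
      exact hyF.2
  have hpre : IsPreconnected (L '' Icc 0 (r / 2)) :=
    (isPreconnected_Icc).image L hLc.continuousOn
  have h0 : L 0 = y := by simp [hL]
  have hy0 : y ∈ L '' Icc 0 (r / 2) := ⟨0, ⟨le_rfl, by positivity⟩, h0⟩
  have hsub : L '' Icc 0 (r / 2) ⊆ connectedComponentIn F y :=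
    hpre.subset_connectedComponentIn hy0 hLF
  have heq : connectedComponentIn F y = C := (connectedComponentIn_eq hy).symm
  rw [heq] at hsub
  have h1 : L (r / 2) ∈ C := hsub ⟨r / 2, ⟨by positivity, le_rfl⟩, rfl⟩
  have h2 := hmax h1
  simp only [hL, Set.mem_ofPred_eq, Function.update_self] at h2
  linarith

theorem signAt_plane (k : Fin 3) {c : ℝ} {y : V} (hy : y k = c) :
    SignAt (fun z => z k) c y k := by
  refine ⟨1, Or.inl rfl, 1, one_pos, fun z _ => ⟨by rw [hy], ?_⟩⟩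
  rw [hy, one_mul]
  exact sub_pos

/-- the crossing points of the graph with the level near a compact set are finitely many -/
theorem finite_cross {Ω Λ : Set V} {f h : V → V} {o : V} {φ : V → ℝ} {t : ℝ} (hinv : IsInv Ω Λ f h)
    (hh : ContinuousOn h Λ) (hG : GoodLevel Ω f φ o t) (G : Net.Graph Ω)
    (hrat : ∀ i, G.a i ∈ Rat3 o ∧ G.b i ∈ Rat3 o) {K : Set V} (hK : IsCompact K) (hKΛ : K ⊆ Λ) :
    {z ∈ K | φ z = t ∧ ∃ i, h z ∈ segment ℝ (G.a i) (G.b i)}.Finite := by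
  have hc : IsCompact (h '' K) := hK.image_of_continuousOn (hh.mono hKΛ)
  have hsub : h '' K ⊆ Ω := by rintro _ ⟨z, hz, rfl⟩; exact (hinv.2 z (hKΛ hz)).1
  have hfin := G.fin (h '' K) hsub hc
  have h1 : (⋃ i ∈ {i | (segment ℝ (G.a i) (G.b i) ∩ h '' K).Nonempty},
      {x ∈ segment ℝ (G.a i) (G.b i) | φ (f x) = t}).Finite :=
    hfin.biUnion (fun i _ => hG.fin _ (hrat i).1 _ (hrat i).2 (G.sub i))
  refine (h1.image f).subset ?_
  rintro z ⟨hzK, hzt, i, hi⟩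
  refine ⟨h z, mem_biUnion (x := i) ⟨h z, hi, z, hzK, rfl⟩ ⟨hi, ?_⟩, (hinv.2 z (hKΛ hzK)).2⟩
  rw [(hinv.2 z (hKΛ hzK)).2]; exact hzt

/-- a margin: points of the level on the graph which are close to the compact set `Q` are in `Q` -/
theorem exists_margin {Ω Λ : Set V} {f h : V → V} {o : V} {φ : V → ℝ} {t : ℝ} (hΛ : IsOpen Λ)
    (hinv : IsInv Ω Λ f h) (hh : ContinuousOn h Λ) (hG : GoodLevel Ω f φ o t) (G : Net.Graph Ω)
    (hrat : ∀ i, G.a i ∈ Rat3 o ∧ G.b i ∈ Rat3 o) {Q : Set V} (hQ : IsCompact Q) (hQΛ : Q ⊆ Λ) :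
    ∃ η > 0, ∀ x ∈ Ω, φ (f x) = t → (∃ i, x ∈ segment ℝ (G.a i) (G.b i)) →
      (∃ z ∈ Q, ‖f x - z‖ < η) → f x ∈ Q := by
  obtain ⟨η1, hη1, hsub⟩ := hQ.exists_cthickening_subset_open hΛ hQΛ
  have hKc : IsCompact (cthickening η1 Q) := hQ.cthickening
  have hfin := finite_cross hinv hh hG G hrat hKc hsub
  set Z := {z ∈ cthickening η1 Q | φ z = t ∧ ∃ i, h z ∈ segment ℝ (G.a i) (G.b i)} with hZ
  have hfin2 : (Z \ Q).Finite := hfin.subset sdiff_subset
  have hdis : Disjoint Q (Z \ Q) := Set.disjoint_sdiff_right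
  obtain ⟨η2, hη2, hη2'⟩ := hdis.exists_thickenings hQ hfin2.isClosed
  refine ⟨min η1 η2, lt_min hη1 hη2, ?_⟩
  rintro x hx hxt ⟨i, hi⟩ ⟨z, hz, hxz⟩
  by_contra hcon
  have h1 : f x ∈ cthickening η1 Q := by
    apply mem_cthickening_of_dist_le (f x) z η1 Q hz
    rw [dist_eq_norm]; exact (hxz.trans_le (min_le_left _ _)).le
  have h2 : f x ∈ Z \ Q := ⟨⟨h1, hxt, i, by rw [(hinv.1 x hx).2]; exact hi⟩, hcon⟩
  have h3 : f x ∈ thickening η2 Q :=
    mem_thickening_iff.2 ⟨z, hz, by rw [dist_eq_norm]; exact hxz.trans_le (min_le_right _ _)⟩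
  have h4 : f x ∈ thickening η2 (Z \ Q) := self_subset_thickening hη2 _ h2
  exact Set.disjoint_left.1 hη2' h3 h4

/-- **(P-R)**, general form: parametrised pieces of `f⁻¹(F)`. -/
theorem piece_pls (hPLS : SpecPLS) {Ω Λ : Set V} {f : V → V} {o : V} {φ : V → ℝ} {t : ℝ}
    (hΩ : IsOpen Ω) (hΛ : IsOpen Λ) (hf : IsHomeo Ω Λ f)
    (hG : GoodLevel Ω f φ o t) (hS : Surf Ω Λ f φ o t) (G : Net.Graph Ω)
    (hrat : ∀ i, G.a i ∈ Rat3 o ∧ G.b i ∈ Rat3 o) {Q : Set V} (hQ : IsCompact Q)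
    (hQc : ConicalSet Q) (hQF : Q ⊆ {z ∈ Λ | φ z = t}) {ε : ℝ} (hε : 0 < ε) :
    ∃ (D : Set V) (g : ConHomeo Q D), D ⊆ Ω ∧ (∀ z ∈ Q, ‖f (g.toFun z) - z‖ < ε) ∧
      ∀ i, ∀ x ∈ D, x ∈ segment ℝ (G.a i) (G.b i) → f x ∈ Q := by
  obtain ⟨h, hinv, hfc, hhc⟩ := hf
  obtain ⟨η, hη, hmar⟩ := exists_margin hΛ hinv hhc hG G hrat hQ (fun z hz => (hQF hz).1)
  obtain ⟨P, g, hPΩ, hclose, hcross⟩ := hPLS Ω Λ f o φ t hΩ hΛ ⟨h, hinv, hfc, hhc⟩ hG hS G hrat
    (fun _ => min ε η) continuousOn_const (fun _ _ => lt_min hε hη)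
  refine ⟨_, g.restr hQc hQF, ?_, ?_, ?_⟩
  · rintro _ ⟨z, hz, rfl⟩
    exact hPΩ (g.mapsTo (hQF hz))
  · intro z hz
    exact (hclose z (hQF hz).1 (hQF hz).2).trans_le (min_le_left _ _)
  · rintro i _ ⟨z, hz, rfl⟩ hi
    have h1 : g.toFun z ∈ P := g.mapsTo (hQF hz)
    exact hmar _ (hPΩ h1) (hcross i _ h1 hi) ⟨i, hi⟩
      ⟨z, hz, (hclose z (hQF hz).1 (hQF hz).2).trans_le (min_le_right _ _)⟩

end P073.PW86
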