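import Vale.Agent.P073.PW86.Log
import Mathlib.Algebra.Polynomial.Roots
import Mathlib.Analysis.SpecialFunctions.Complex.Arg
import Mathlib.Topology.Separation.Connected

/-!
# P073, block PW: a function on a strip that separates the bottom from the top

If `W ^ m = exp (i θ)` on the set `|u - c| ≤ κ`, where `u` is periodic, `u < c - κ` on the bottom
line and `u > c + κ` on the top line, and `W` is periodic, then `m = 1`.
-/

open Set Topology Complex

namespace P073.PW86

/-- a function of a function with finitely many values is continuous -/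
theorem continuousOn_comp_finite {X Y : Type*} [TopologicalSpace X] [TopologicalSpace Y]
    {N : Set X} {φ : X → ℂ} (hφ : ContinuousOn φ N) {T : Set ℂ} (hT : T.Finite)
    (hm : MapsTo φ N T) (κ : ℂ → Y) : ContinuousOn (fun x => κ (φ x)) N := by
  intro x0 hx0
  have h1 : (T \ {φ x0})ᶜ ∈ 𝓝 (φ x0) :=
    (hT.subset sdiff_subset).isClosed.isOpen_compl.mem_nhds (by simp)
  have h2 : ∀ᶠ x in 𝓝[N] x0, κ (φ x) = κ (φ x0) := by
    filter_upwards [hφ x0 hx0 h1, self_mem_nhdsWithin] with x hx hxN
    by_contra hne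
    apply hx
    exact ⟨hm hxN, fun h => hne (by rw [mem_singleton_iff.1 h])⟩
  exact (continuousWithinAt_const (b := κ (φ x0))).congr_of_eventuallyEq h2 rfl

/-- a continuous function with `f ^ m = 1` is constant on a preconnected set -/
theorem root_const {X : Type*} [TopologicalSpace X] {S : Set X} (hS : IsPreconnected S)
    {f : X → ℂ} (hf : ContinuousOn f S) {m : ℕ} (hm : 0 < m) (h : ∀ x ∈ S, f x ^ m = 1)
    {x y : X} (hx : x ∈ S) (hy : y ∈ S) : f x = f y := by
  have hfin : {z : ℂ | z ^ m = 1}.Finite := by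
    have : {z : ℂ | z ^ m = 1} = ↑(Polynomial.nthRootsFinset m (1 : ℂ)) := by
      ext z; simp [Polynomial.mem_nthRootsFinset hm]
    rw [this]; exact Finset.finite_toSet _
  have h1 : IsPreconnected (f '' S) := hS.image f hf
  have h2 : (f '' S).Finite := hfin.subset (by rintro _ ⟨x, hx, rfl⟩; exact h x hx)
  by_contra hne
  exact (h1.infinite_of_nontrivial
    ⟨f x, mem_image_of_mem f hx, f y, mem_image_of_mem f hy, hne⟩) h2

/-- **Strip lemma.** -/
theorem strip {u : ℝ × ℝ → ℝ} (hu : Continuous u) {c κ : ℝ} (hκ : 0 < κ)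
    (hper : ∀ θ z, u (θ + 2 * Real.pi, z) = u (θ, z))
    (hbot : ∀ θ, u (θ, 0) < c - κ) (htop : ∀ θ, c + κ < u (θ, 1))
    {m : ℕ} (hm : 0 < m) {W : ℝ × ℝ → ℂ} (hW : ContinuousOn W {x | |u x - c| ≤ κ})
    (hWp : ∀ θ z, |u (θ, z) - c| ≤ κ → W (θ + 2 * Real.pi, z) = W (θ, z))
    (hWm : ∀ x : ℝ × ℝ, |u x - c| ≤ κ → W x ^ m = exp ((x.1 : ℂ) * I)) : m = 1 := by
  classical
  have hm0 : (m : ℂ) ≠ 0 := by exact_mod_cast hm.ne'
  set N : Set (ℝ × ℝ) := {x | |u x - c| ≤ κ} with hN
  set σ : ℝ × ℝ → ℝ × ℝ := fun x => (x.1 + 2 * Real.pi, x.2) with hσ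
  have hσc : Continuous σ := by fun_prop
  have huσ : ∀ x, u (σ x) = u x := fun x => hper x.1 x.2
  have hσN : MapsTo σ N N := fun x hx => by simp only [hN, mem_ofPred_eq, huσ]; exact hx
  -- the root of unity
  set ζ : ℝ × ℝ → ℂ := fun x => W x * exp (-((x.1 : ℂ) * I / m)) with hζ
  have hζc : ContinuousOn ζ N := by
    apply hW.mul
    apply Continuous.continuousOn
    fun_prop
  have hζm : ∀ x ∈ N, ζ x ^ m = 1 := by
    intro x hx
    simp only [hζ, mul_pow]
    rw [hWm x hx, ← exp_nat_mul, ← exp_add]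
    have : (x.1 : ℂ) * I + (m : ℂ) * -((x.1 : ℂ) * I / m) = 0 := by field_simp; ring
    rw [this, exp_zero]
  have hκf : ∀ z : ℂ, ∃ n : ℤ, z ^ m = 1 → exp (2 * Real.pi * I * n / m) = z := by
    intro z
    by_cases hz : z ^ m = 1
    · have hz0 : z ≠ 0 := by
        rintro rfl
        rw [zero_pow hm.ne'] at hz
        exact zero_ne_one hz
      have h1 : exp (m * log z) = exp 0 := by
        rw [exp_nat_mul, exp_log hz0, hz, exp_zero]
      obtain ⟨n, hn⟩ := exp_eq_exp_iff_exists_int.1 h1
      refine ⟨n, fun _ => ?_⟩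
      have : 2 * Real.pi * I * n / m = log z := by
        rw [zero_add] at hn
        field_simp
        rw [mul_comm, hn]
      rw [this, exp_log hz0]
    · exact ⟨0, fun h => absurd h hz⟩
  choose κf hκf using hκf
  set k : ℝ × ℝ → ℝ := fun x => if x ∈ N then (κf (ζ x) : ℝ) else 0 with hk
  have hkZ : ∀ x, ∃ n : ℤ, k x = n := by
    intro x
    by_cases hx : x ∈ N
    · exact ⟨κf (ζ x), by simp [hk, hx]⟩
    · exact ⟨0, by simp [hk, hx]⟩
  have hfin : {z : ℂ | z ^ m = 1}.Finite := by
    have : {z : ℂ | z ^ m = 1} = ↑(Polynomial.nthRootsFinset m (1 : ℂ)) := by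
      ext z; simp [Polynomial.mem_nthRootsFinset hm]
    rw [this]; exact Finset.finite_toSet _
  have hkc : ContinuousOn k N := by
    have := continuousOn_comp_finite hζc hfin (fun x hx => hζm x hx) (fun z => (κf z : ℝ))
    refine this.congr (fun x hx => ?_)
    simp [hk, hx]
  have hkW : ∀ x ∈ N, exp (2 * Real.pi * I * k x / m) * exp ((x.1 : ℂ) * I / m) = W x := by
    intro x hx
    have h1 : ((k x : ℝ) : ℂ) = (κf (ζ x) : ℂ) := by simp [hk, hx]
    rw [h1, hκf (ζ x) (hζm x hx)]
    simp only [hζ]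
    rw [mul_assoc, ← exp_add, neg_add_cancel, exp_zero, mul_one]
  -- the cut-off
  set χ : ℝ → ℝ := fun t => max 0 (min 1 ((c + κ - t) / (2 * κ))) with hχ
  have hχc : Continuous χ := by fun_prop
  have hχ1 : ∀ t, t ≤ c - κ → χ t = 1 := by
    intro t ht
    have : 1 ≤ (c + κ - t) / (2 * κ) := by rw [le_div_iff₀ (by positivity)]; linarith
    simp only [hχ]; rw [min_eq_left this]; simp
  have hχ0 : ∀ t, c + κ ≤ t → χ t = 0 := by
    intro t ht
    have : (c + κ - t) / (2 * κ) ≤ 0 := div_nonpos_of_nonpos_of_nonneg (by linarith) (by positivity)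
    simp only [hχ]; exact max_eq_left ((min_le_right _ _).trans this)
  have hNc : IsClosed N := isClosed_le (by fun_prop) continuous_const
  have hAc : IsClosed {x | u x ≤ c - κ} := isClosed_le hu continuous_const
  have hBc : IsClosed {x | c + κ ≤ u x} := isClosed_le continuous_const hu
  have hcov : ∀ x, u x ≤ c - κ ∨ x ∈ N ∨ c + κ ≤ u x := by
    intro x
    by_cases h1 : u x ≤ c - κ
    · exact Or.inl h1
    · by_cases h2 : c + κ ≤ u x
      · exact Or.inr (Or.inr h2)
      · refine Or.inr (Or.inl ?_)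
        simp only [hN, mem_ofPred_eq]
        rw [abs_le]; constructor <;> linarith
  have hexpZ : ∀ n : ℤ, exp (2 * Real.pi * I * n) = 1 := by
    intro n
    rw [mul_comm]; exact exp_int_mul_two_pi_mul_I n
  have hexpk : ∀ x, exp (2 * Real.pi * I * k x) = 1 := by
    intro x
    obtain ⟨n, hn⟩ := hkZ x
    rw [hn]; push_cast; exact hexpZ n
  -- `G`
  set G : ℝ × ℝ → ℂ := fun x => exp (2 * Real.pi * I * k x * χ (u x)) with hG
  have hGA : ∀ x, u x ≤ c - κ → G x = 1 := by
    intro x hx
    simp only [hG]; rw [hχ1 _ hx]; push_cast; rw [mul_one]; exact hexpk x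
  have hGB : ∀ x, c + κ ≤ u x → G x = 1 := by
    intro x hx
    simp only [hG]; rw [hχ0 _ hx]; push_cast; rw [mul_zero, exp_zero]
  have hGc : Continuous G := by
    rw [← continuousOn_univ]
    have h1 : ContinuousOn G {x | u x ≤ c - κ} :=
      continuousOn_const.congr (fun x hx => hGA x hx)
    have h2 : ContinuousOn G {x | c + κ ≤ u x} :=
      continuousOn_const.congr (fun x hx => hGB x hx)
    have h3 : ContinuousOn G N := by
      simp only [hG]
      apply continuous_exp.comp_continuousOn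
      apply ContinuousOn.mul
      · apply ContinuousOn.mul continuousOn_const
        exact continuous_ofReal.comp_continuousOn hkc
      · exact (continuous_ofReal.comp (hχc.comp hu)).continuousOn
    have h4 := (h1.union_of_isClosed h3 hAc hNc).union_of_isClosed h2 (hAc.union hNc) hBc
    refine h4.mono (fun x _ => ?_)
    rcases hcov x with h | h | h
    · exact Or.inl (Or.inl h)
    · exact Or.inl (Or.inr h)
    · exact Or.inr h
  obtain ⟨L, hLc, hL⟩ := exists_log G hGc (fun x => exp_ne_zero _)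
  -- the function `E`
  set Δ : ℝ × ℝ → ℝ := fun x => k (σ x) - k x with hΔ
  have hΔZ : ∀ x, ∃ n : ℤ, Δ x = n := by
    intro x
    obtain ⟨n, hn⟩ := hkZ x
    obtain ⟨n', hn'⟩ := hkZ (σ x)
    exact ⟨n' - n, by simp only [hΔ, hn, hn']; push_cast; ring⟩
  have hΔc : ContinuousOn Δ N := (hkc.comp hσc.continuousOn hσN).sub hkc
  set E1 : ℝ × ℝ → ℂ := fun x =>
    exp ((L (σ x) - L x + 2 * Real.pi * I * ((Δ x * (1 - χ (u x)) : ℝ) + 1)) / m) with hE1
  set E2 : ℝ × ℝ → ℂ := fun x =>
    exp ((L (σ x) - L x - 2 * Real.pi * I * ((Δ x * χ (u x) : ℝ))) / m) with hE2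
  set E : ℝ × ℝ → ℂ := fun x => if u x ≤ c then E1 x else E2 x with hE
  have hE1c : ContinuousOn E1 {x | u x ≤ c} := by
    have h1 : ContinuousOn (fun x => Δ x * (1 - χ (u x))) {x | u x ≤ c - κ} := by
      refine (continuousOn_const (c := (0:ℝ))).congr (fun x hx => ?_)
      simp only; rw [hχ1 _ hx]; simp
    have h2 : ContinuousOn (fun x => Δ x * (1 - χ (u x))) N :=
      hΔc.mul (continuous_const.sub (hχc.comp hu)).continuousOn
    have h3 := h1.union_of_isClosed h2 hAc hNc
    have h4 : ContinuousOn (fun x => Δ x * (1 - χ (u x))) {x | u x ≤ c} := by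
      refine h3.mono (fun x hx => ?_)
      rcases hcov x with h | h | h
      · exact Or.inl h
      · exact Or.inr h
      · exfalso; have : u x ≤ c := hx; linarith
    simp only [hE1]
    apply continuous_exp.comp_continuousOn
    apply ContinuousOn.div_const
    apply ContinuousOn.add
    · exact ((hLc.comp hσc).sub hLc).continuousOn
    · apply ContinuousOn.mul continuousOn_const
      exact (continuous_ofReal.comp_continuousOn h4).add continuousOn_const
  have hE2c : ContinuousOn E2 {x | c ≤ u x} := by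
    have h1 : ContinuousOn (fun x => Δ x * χ (u x)) {x | c + κ ≤ u x} := by
      refine (continuousOn_const (c := (0:ℝ))).congr (fun x hx => ?_)
      simp only; rw [hχ0 _ hx]; simp
    have h2 : ContinuousOn (fun x => Δ x * χ (u x)) N :=
      hΔc.mul (hχc.comp hu).continuousOn
    have h3 := h1.union_of_isClosed h2 hBc hNc
    have h4 : ContinuousOn (fun x => Δ x * χ (u x)) {x | c ≤ u x} := by
      refine h3.mono (fun x hx => ?_)
      rcases hcov x with h | h | h
      · exfalso; have : c ≤ u x := hx; linarith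
      · exact Or.inr h
      · exact Or.inl h
    simp only [hE2]
    apply continuous_exp.comp_continuousOn
    apply ContinuousOn.div_const
    apply ContinuousOn.sub
    · exact ((hLc.comp hσc).sub hLc).continuousOn
    · apply ContinuousOn.mul continuousOn_const
      exact continuous_ofReal.comp_continuousOn h4
  have hkey : ∀ x ∈ N, exp (2 * Real.pi * I * (Δ x + 1) / m) = 1 := by
    intro x hx
    have h1 : W (σ x) = W x := hWp x.1 x.2 hx
    have h2 := hkW (σ x) (hσN hx)
    rw [h1, ← hkW x hx, ← exp_add, ← exp_add] at h2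
    have h3 : 2 * Real.pi * I * (Δ x + 1) / m
        = (2 * Real.pi * I * k (σ x) / m + ((σ x).1 : ℂ) * I / m)
          - (2 * Real.pi * I * k x / m + (x.1 : ℂ) * I / m) := by
      simp only [hΔ, hσ]; push_cast; ring
    rw [h3, exp_sub, h2, div_self (exp_ne_zero _)]
  have hEc : Continuous E := by
    refine continuous_if_le hu continuous_const hE1c hE2c (fun x hx => ?_)
    have hxN : x ∈ N := by simp only [hN, mem_ofPred_eq, hx, sub_self, abs_zero]; exact hκ.le
    have h1 : E1 x = E2 x * exp (2 * Real.pi * I * (Δ x + 1) / m) := by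
      simp only [hE1, hE2]
      rw [← exp_add]
      congr 1
      push_cast; ring
    rw [h1, hkey x hxN, mul_one]
  have hexpL : ∀ x, exp (L (σ x) - L x) = exp (2 * Real.pi * I * (Δ x * χ (u x) : ℝ)) := by
    intro x
    rw [exp_sub, hL, hL]
    simp only [hG]
    rw [← exp_sub, huσ]
    congr 1
    simp only [hΔ]; push_cast; ring
  have hEm : ∀ x, E x ^ m = 1 := by
    intro x
    obtain ⟨n, hn⟩ := hΔZ x
    have e1 : ∀ w : ℂ, exp (w / m) ^ m = exp w := by
      intro w
      rw [← exp_nat_mul]; congr 1; field_simp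
    simp only [hE]
    split_ifs with h
    · simp only [hE1]
      rw [e1, exp_add, hexpL, ← exp_add]
      have : 2 * Real.pi * I * (Δ x * χ (u x) : ℝ)
          + 2 * Real.pi * I * ((Δ x * (1 - χ (u x)) : ℝ) + 1)
          = 2 * Real.pi * I * ((n + 1 : ℤ) : ℂ) := by
        rw [hn]; push_cast; ring
      rw [this]; exact hexpZ _
    · simp only [hE2]
      rw [e1, exp_sub, hexpL, div_self (exp_ne_zero _)]
  have hEconst : E (0, 0) = E (0, 1) :=
    root_const (S := univ) isPreconnected_univ hEc.continuousOn hm (fun x _ => hEm x)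
      (mem_univ _) (mem_univ _)
  -- bottom and top
  have hline : ∀ z : ℝ, IsPreconnected ((fun θ : ℝ => ((θ, z) : ℝ × ℝ)) '' univ) := fun z =>
    isPreconnected_univ.image _ (by fun_prop)
  have hcl : ∀ z : ℝ, (∀ θ, G (θ, z) = 1) → L (σ (0, z)) - L (0, z) = 0 := by
    intro z hz
    obtain ⟨d, hd⟩ := log_diff (hline z) (L := L) (M := fun _ => 0) hLc.continuousOn
      continuousOn_const (by
        rintro _ ⟨θ, _, rfl⟩
        simp only
        rw [hL, hz, exp_zero])
    rw [hd (σ (0, z)) ⟨0 + 2 * Real.pi, mem_univ _, rfl⟩, hd (0, z) ⟨0, mem_univ _, rfl⟩, sub_self]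
  have hb : L (σ (0, 0)) - L (0, 0) = 0 :=
    hcl 0 (fun θ => hGA _ (hbot θ).le)
  have ht : L (σ (0, 1)) - L (0, 1) = 0 :=
    hcl 1 (fun θ => hGB _ (htop θ).le)
  have hE0 : E (0, 0) = exp (2 * Real.pi * I / m) := by
    have h1 : u (0, 0) ≤ c := by have := hbot 0; linarith
    simp only [hE, if_pos h1, hE1]
    rw [hb, hχ1 _ (hbot 0).le]
    congr 1; push_cast; ring
  have hE1' : E (0, 1) = 1 := by
    have h1 : ¬ u (0, 1) ≤ c := by have := htop 0; intro h; linarith
    simp only [hE, if_neg h1, hE2]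
    rw [ht, hχ0 _ (htop 0).le]
    simp
  rw [hE0, hE1', exp_eq_one_iff] at hEconst
  obtain ⟨n, hn⟩ := hEconst
  have hpi : (2 * Real.pi * I : ℂ) ≠ 0 := two_pi_I_ne_zero
  have h1 : (1 : ℂ) = n * m := by
    field_simp at hn
    have h2 : (2 * Real.pi * I : ℂ) * 1 = (2 * Real.pi * I) * (n * m) := by
      rw [mul_one]
      linear_combination (2 * Real.pi * I) * hn
    exact mul_left_cancel₀ hpi h2
  have h2 : (1 : ℤ) = n * m := by exact_mod_cast h1
  have h3 : (m : ℤ) ∣ 1 := ⟨n, by rw [h2]; ring⟩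
  exact_mod_cast Int.eq_one_of_dvd_one (by positivity) h3

end P073.PW86
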