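import Vale.Agent.P073.MOS.Local

/-!
# P073, block TM-F (helper86): local unions of octants, cycles of quarter planes
-/

open Set Metric Topology Function Filter

namespace P073.PW86

open P073.MOS

/-- the closed octant at `p` of the sign pattern `s` -/
def oct (p : V3) (s : Fin 3 → Bool) : Set V3 := {z | ∀ k, 0 ≤ sg (k, s k) * (z k - p k)}

/-- the sign pattern with prescribed values at two half axes -/
def upd (h h' : HA) (b : Bool) : Fin 3 → Bool :=
  fun l => if l = h.1 then h.2 else if l = h'.1 then h'.2 else b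

/-- the quarter planes which separate occupied and non-occupied octants -/
def Qr (occ : (Fin 3 → Bool) → Bool) (h h' : HA) : Bool :=
  decide (h.1 ≠ h'.1) && (occ (upd h h' true) != occ (upd h h' false))

theorem sg_true (k : Fin 3) : sg (k, true) = 1 := by simp [sg]

theorem sg_false (k : Fin 3) : sg (k, false) = -1 := by simp [sg]

theorem quarter_oct {p z : V3} {h h' : HA} (hne : h.1 ≠ h'.1) (hz : z ∈ quarter p h h')
    (b : Bool) : z ∈ oct p (upd h h' b) := by
  obtain ⟨s, t, hs, ht, rfl⟩ := hz
  intro k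
  by_cases h1 : k = h.1
  · subst h1
    have e : upd h h' b h.1 = h.2 := by simp [upd]
    rw [e, qpt_left hne, add_sub_cancel_left]
    have : sg (h.1, h.2) = sg h := rfl
    rw [this]
    nlinarith [sg_sq h]
  · by_cases h2 : k = h'.1
    · subst h2
      have e : upd h h' b h'.1 = h'.2 := by simp [upd, h1]
      rw [e, qpt_right hne, add_sub_cancel_left]
      have : sg (h'.1, h'.2) = sg h' := rfl
      rw [this]
      nlinarith [sg_sq h']
    · rw [qpt_other h1 h2, sub_self, mul_zero]

theorem exists_lm (j : Fin 3) : ∃ l m : Fin 3, l ≠ m ∧ l ≠ j ∧ m ≠ j := by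
  revert j; decide

theorem three_cases {j l m : Fin 3} (h1 : l ≠ m) (h2 : l ≠ j) (h3 : m ≠ j) (k : Fin 3) :
    k = j ∨ k = l ∨ k = m := by
  revert j l m k; decide

/-- a point of two octants which differ in one coordinate -/
theorem oct_quarter {p z : V3} {s : Fin 3 → Bool} {j l m : Fin 3} (h1 : l ≠ m) (h2 : l ≠ j)
    (h3 : m ≠ j) (hz : z ∈ oct p s) (hj : z j = p j) : z ∈ quarter p (l, s l) (m, s m) := by
  refine ⟨sg (l, s l) * (z l - p l), sg (m, s m) * (z m - p m), hz l, hz m, ?_⟩
  funext k
  have hne : ((l, s l) : HA).1 ≠ ((m, s m) : HA).1 := h1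
  rcases three_cases h1 h2 h3 k with rfl | rfl | rfl
  · rw [qpt_other (h := (l, s l)) (h' := (m, s m)) (Ne.symm h2) (Ne.symm h3), hj]
  · have := qpt_left (p := p) (s := sg (k, s k) * (z k - p k)) (t := sg (m, s m) * (z m - p m))
      hne
    rw [show (((k, s k) : HA).1) = k from rfl] at this
    rw [this]
    linear_combination -(z k - p k) * sg_sq (k, s k)
  · have := qpt_right (p := p) (s := sg (l, s l) * (z l - p l)) (t := sg (k, s k) * (z k - p k))
      hne
    rw [show (((k, s k) : HA).1) = k from rfl] at this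
    rw [this]
    linear_combination -(z k - p k) * sg_sq (k, s k)

theorem upd_self {s : Fin 3 → Bool} {j l m : Fin 3} (h1 : l ≠ m) (h2 : l ≠ j) (h3 : m ≠ j) :
    upd (l, s l) (m, s m) (s j) = s := by
  funext k
  rcases three_cases h1 h2 h3 k with rfl | rfl | rfl
  · simp [upd, Ne.symm h2, Ne.symm h3]
  · simp [upd]
  · simp [upd, Ne.symm h1]

/-- one change of sign -/
theorem step {p z : V3} {occ : (Fin 3 → Bool) → Bool} {s s' : Fin 3 → Bool} (j : Fin 3)
    (hss : ∀ k, k ≠ j → s k = s' k) (hs : occ s = true) (hs' : occ s' = false)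
    (hz : z ∈ oct p s) (hz' : z ∈ oct p s') : ∃ h h', Qr occ h h' = true ∧ z ∈ quarter p h h' := by
  obtain ⟨l, m, h1, h2, h3⟩ := exists_lm j
  have hj : s j ≠ s' j := by
    intro h
    have : s = s' := by
      funext k
      by_cases hk : k = j
      · rw [hk]; exact h
      · exact hss k hk
    rw [this, hs'] at hs
    exact Bool.false_ne_true hs
  have hzj : z j = p j := by
    have a := hz j
    have b := hz' j
    rcases hb : s j with _ | _ <;> rcases hb' : s' j with _ | _
    · exact absurd (hb.trans hb'.symm) hj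
    · rw [hb, sg_false] at a
      rw [hb', sg_true] at b
      linarith
    · rw [hb, sg_true] at a
      rw [hb', sg_false] at b
      linarith
    · exact absurd (hb.trans hb'.symm) hj
  refine ⟨(l, s l), (m, s m), ?_, oct_quarter h1 h2 h3 hz hzj⟩
  have e1 : upd (l, s l) (m, s m) (s j) = s := upd_self h1 h2 h3
  have e2 : upd (l, s l) (m, s m) (s' j) = s' := by
    rw [hss l h2, hss m h3]; exact upd_self h1 h2 h3
  unfold Qr
  rcases hb : s j with _ | _ <;> rcases hb' : s' j with _ | _
  · exact absurd (hb.trans hb'.symm) hj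
  · rw [hb] at e1; rw [hb'] at e2
    rw [e1, e2, hs, hs']; simp [h1]
  · rw [hb] at e1; rw [hb'] at e2
    rw [e1, e2, hs, hs']; simp [h1]
  · exact absurd (hb.trans hb'.symm) hj

theorem oct_mix {p z : V3} {s s' t : Fin 3 → Bool} (hz : z ∈ oct p s) (hz' : z ∈ oct p s')
    (ht : ∀ k, t k = s k ∨ t k = s' k) : z ∈ oct p t := by
  intro k
  rcases ht k with h | h <;> rw [h]
  · exact hz k
  · exact hz' k

/-- **points between occupied and non-occupied octants** -/
theorem oct_iff {p z : V3} {occ : (Fin 3 → Bool) → Bool} :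
    (∃ s s', occ s = true ∧ occ s' = false ∧ z ∈ oct p s ∧ z ∈ oct p s') ↔
      ∃ h h', Qr occ h h' = true ∧ z ∈ quarter p h h' := by
  constructor
  · rintro ⟨s, s', hs, hs', hz, hz'⟩
    -- change the coordinates one by one
    set t1 : Fin 3 → Bool := ![s' 0, s 1, s 2] with ht1
    set t2 : Fin 3 → Bool := ![s' 0, s' 1, s 2] with ht2
    have z1 : z ∈ oct p t1 := oct_mix hz hz' (by intro k; fin_cases k <;> simp [ht1])
    have z2 : z ∈ oct p t2 := oct_mix hz hz' (by intro k; fin_cases k <;> simp [ht2])
    rcases h1 : occ t1 with _ | _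
    · exact step 0 (by intro k hk; fin_cases k <;> simp [ht1] at hk ⊢) hs h1 hz z1
    · rcases h2 : occ t2 with _ | _
      · exact step 1 (by intro k hk; fin_cases k <;> simp [ht1, ht2] at hk ⊢) h1 h2 z1 z2
      · exact step 2 (by intro k hk; fin_cases k <;> simp [ht2] at hk ⊢) h2 hs' z2 hz'
  · rintro ⟨h, h', hQ, hz⟩
    unfold Qr at hQ
    simp only [ne_eq, decide_not, Bool.and_eq_true, Bool.not_eq_eq_eq_not, Bool.not_true,
      decide_eq_false_iff_not, bne_iff_ne] at hQ
    obtain ⟨hne, hocc⟩ := hQ
    rcases ht : occ (upd h h' true) with _ | _ <;> rcases hf : occ (upd h h' false) with _ | _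
    · exact absurd (ht.trans hf.symm) hocc
    · exact ⟨_, _, hf, ht, quarter_oct hne hz _, quarter_oct hne hz _⟩
    · exact ⟨_, _, ht, hf, quarter_oct hne hz _, quarter_oct hne hz _⟩
    · exact absurd (ht.trans hf.symm) hocc

/-! ### cycles given by lists -/

/-- `L` is a cycle of `R` -/
def chk (L : List HA) (R : HA → HA → Bool) : Bool :=
  decide (3 ≤ L.length) && decide L.Nodup && decide (∀ h h' : HA, R h h' = true ↔
    ∃ i : Fin L.length, (h = L[i.1] ∧ h' = L.getD ((i.1 + 1) % L.length) (0, true)) ∨
      (h = L.getD ((i.1 + 1) % L.length) (0, true) ∧ h' = L[i.1]))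

theorem isCyc_of_chk {L : List HA} {R : HA → HA → Bool} (h : chk L R = true) :
    IsCyc (fun h h' => R h h' = true) := by
  simp only [chk, Bool.and_eq_true, decide_eq_true_eq] at h
  obtain ⟨⟨h3, hnd⟩, hR⟩ := h
  have hn : NeZero L.length := ⟨by omega⟩
  refine ⟨L.length, h3, fun i => L[i.val]'(ZMod.val_lt i), ?_, fun a b => ?_⟩
  · intro i j hij
    have := (List.Nodup.getElem_inj_iff hnd (hi := ZMod.val_lt i) (hj := ZMod.val_lt j)).1 hij
    exact ZMod.val_injective _ this
  · have hsucc : ∀ i : ZMod L.length, (i + 1).val = (i.val + 1) % L.length := by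
      intro i
      rw [ZMod.val_add, ZMod.val_one_eq_one_mod, Nat.add_mod_mod]
    have hget : ∀ i : ZMod L.length, L.getD ((i.val + 1) % L.length) (0, true) =
        L[(i + 1).val]'(ZMod.val_lt (i + 1)) := by
      intro i
      rw [List.getD_eq_getElem (hn := by rw [← hsucc]; exact ZMod.val_lt _)]
      simp only [hsucc]
    show R a b = true ↔ _
    rw [hR]
    constructor
    · rintro ⟨i, hi⟩
      refine ⟨(i.1 : ZMod L.length), ?_⟩
      have hv : ((i.1 : ZMod L.length)).val = i.1 := ZMod.val_natCast_of_lt i.2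
      have := hget (i.1 : ZMod L.length)
      rw [hv] at this
      simp only [this] at hi
      simpa only [hv] using hi
    · rintro ⟨i, hi⟩
      refine ⟨⟨i.val, ZMod.val_lt i⟩, ?_⟩
      simp only [hget]
      exact hi

/-- the six half axes -/
def allHA : List HA := [(0, true), (0, false), (1, true), (1, false), (2, true), (2, false)]

/-- follow a path -/
def walk (R : HA → HA → Bool) (st : HA) : ℕ → HA → HA → List HA
  | 0, _, _ => []
  | n + 1, prev, cur => cur :: (match allHA.find? (fun h => R cur h && h != prev) with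
    | some nx => if nx = st then [] else walk R st n cur nx
    | none => [])

/-- find a cycle -/
def fcyc (R : HA → HA → Bool) : List HA :=
  match allHA.find? (fun h => allHA.any (fun h' => R h h')) with
  | some st => walk R st 7 st st
  | none => []

/-- the pattern of a box: `some b` means that near `p` the box is on the side `b` -/
def pat (τ : Fin 3 → Option Bool) (s : Fin 3 → Bool) : Bool :=
  decide (∀ k, τ k = none ∨ τ k = some (s k))

theorem chk_one : ∀ x y z : Option Bool, (x ≠ none ∨ y ≠ none ∨ z ≠ none) →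
    chk (fcyc (Qr (pat ![x, y, z]))) (Qr (pat ![x, y, z])) = true := by
  decide +kernel

theorem isCyc_pat (τ : Fin 3 → Option Bool) (h : ∃ k, τ k ≠ none) :
    IsCyc (fun h h' => Qr (pat τ) h h' = true) := by
  have e : τ = ![τ 0, τ 1, τ 2] := by
    funext k; fin_cases k <;> rfl
  rw [e]
  refine isCyc_of_chk (chk_one _ _ _ ?_)
  obtain ⟨k, hk⟩ := h
  fin_cases k
  · exact Or.inl hk
  · exact Or.inr (Or.inl hk)
  · exact Or.inr (Or.inr hk)

theorem chk_two : ∀ (i : Fin 3) (d : Bool) (x y z : Option Bool),
    (x ≠ none ∨ y ≠ none ∨ z ≠ none) → ![x, y, z] i = none →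
    chk (fcyc (Qr (fun s => pat (fun k => if k = i then some d else none) s ||
        pat ![x, y, z] s)))
      (Qr (fun s => pat (fun k => if k = i then some d else none) s ||
        pat ![x, y, z] s)) = true := by
  decide +kernel

theorem isCyc_pat2 (i : Fin 3) (d : Bool) (τ : Fin 3 → Option Bool) (h0 : τ i = none)
    (h : ∃ k, τ k ≠ none) :
    IsCyc (fun h h' => Qr (fun s => pat (fun k => if k = i then some d else none) s || pat τ s)
      h h' = true) := by
  have e : τ = ![τ 0, τ 1, τ 2] := by
    funext k; fin_cases k <;> rfl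
  rw [e]
  rw [e] at h0
  refine isCyc_of_chk (chk_two _ _ _ _ _ ?_ h0)
  obtain ⟨k, hk⟩ := h
  fin_cases k
  · exact Or.inl hk
  · exact Or.inr (Or.inl hk)
  · exact Or.inr (Or.inr hk)

end P073.PW86
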