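import Vale.Agent.P073.PW86.TMOct
import Vale.Agent.P073.PA691.TMSpec

/-!
# P073, block TM-F (helper86): `RectLocal (s.F c)`
-/

open Set Metric Topology Function Filter

namespace P073.PW86

open P073.MOS PR720 PA691
open Vale.Agent.P073.St (V IsInv)

/-- the side of `p` on which the box is -/
noncomputable def tb (lo hi p : V) (k : Fin 3) : Option Bool :=
  open Classical in if p k = lo k then some true else if p k = hi k then some false else none

/-- one coordinate of a box -/
theorem coord {l h p z ε : ℝ} {k : Fin 3} (hlt : l < h) (h1 : l ≤ p) (h2 : p ≤ h)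
    (e1 : p ≠ l → ε ≤ p - l) (e2 : p ≠ h → ε ≤ h - p) (hz : |z - p| < ε) (t : Option Bool)
    (ht : t = open Classical in if p = l then some true else if p = h then some false else none) :
    ((l ≤ z ∧ z ≤ h) ↔ ∃ b, (t = none ∨ t = some b) ∧ 0 ≤ sg (k, b) * (z - p)) ∧
      ((l < z ∧ z < h) ↔ ∀ b, 0 ≤ sg (k, b) * (z - p) → (t = none ∨ t = some b)) := by
  classical
  obtain ⟨z1, z2⟩ := abs_lt.1 hz
  have st : sg (k, true) = 1 := sg_true k
  have sf : sg (k, false) = -1 := sg_false k
  by_cases hpl : p = l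
  · have : t = some true := by rw [ht]; simp [hpl]
    subst this
    have h3 := e2 (by rw [hpl]; exact hlt.ne)
    constructor
    · constructor
      · rintro ⟨a, b⟩
        exact ⟨true, Or.inr rfl, by rw [st]; linarith⟩
      · rintro ⟨b, hb, h4⟩
        have : b = true := by simpa using hb.symm
        subst this
        rw [st] at h4
        exact ⟨by linarith, by linarith⟩
    · constructor
      · rintro ⟨a, b⟩ b' hb'
        right
        cases b'
        · rw [sf] at hb'; linarith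
        · rfl
      · intro h4
        constructor
        · by_contra hc
          push Not at hc
          have := h4 false (by rw [sf]; linarith)
          simp at this
        · linarith
  · by_cases hph : p = h
    · have : t = some false := by rw [ht]; simp [hph, hlt.ne']
      subst this
      have h3 := e1 hpl
      constructor
      · constructor
        · rintro ⟨a, b⟩
          exact ⟨false, Or.inr rfl, by rw [sf]; linarith⟩
        · rintro ⟨b, hb, h4⟩
          have : b = false := by simpa using hb.symm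
          subst this
          rw [sf] at h4
          exact ⟨by linarith, by linarith⟩
      · constructor
        · rintro ⟨a, b⟩ b' hb'
          right
          cases b'
          · rfl
          · rw [st] at hb'; linarith
        · intro h4
          constructor
          · linarith
          · by_contra hc
            push Not at hc
            have := h4 true (by rw [st]; linarith)
            simp at this
    · have : t = none := by rw [ht]; simp [hpl, hph]
      subst this
      have h3 := e1 hpl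
      have h4 := e2 hph
      constructor
      · constructor
        · rintro ⟨a, b⟩
          rcases le_total p z with h5 | h5
          · exact ⟨true, Or.inl rfl, by rw [st]; linarith⟩
          · exact ⟨false, Or.inl rfl, by rw [sf]; linarith⟩
        · rintro _
          exact ⟨by linarith, by linarith⟩
      · constructor
        · rintro _ b' _
          exact Or.inl rfl
        · intro _
          exact ⟨by linarith, by linarith⟩

/-- `ε` is smaller than the distance of `p` from the faces of the box not containing `p` -/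
def Small (lo hi p : V) (ε : ℝ) : Prop :=
  ∀ k, (p k ≠ lo k → ε ≤ p k - lo k) ∧ (p k ≠ hi k → ε ≤ hi k - p k)

theorem exists_compat (k : Fin 3) (x : ℝ) : ∃ b, 0 ≤ sg (k, b) * x := by
  rcases le_total 0 x with h | h
  · exact ⟨true, by rw [sg_true]; linarith⟩
  · exact ⟨false, by rw [sg_false]; linarith⟩

theorem box_iff {lo hi p z : V} {ε : ℝ} (hlt : ∀ k, lo k < hi k) (hp : p ∈ Icc lo hi)
    (hε : Small lo hi p ε) (hz : dist z p < ε) :
    (z ∈ Icc lo hi ↔ ∃ s, pat (tb lo hi p) s = true ∧ z ∈ oct p s) ∧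
      ((∀ k, lo k < z k ∧ z k < hi k) ↔
        ∀ s, z ∈ oct p s → pat (tb lo hi p) s = true) := by
  have hzk : ∀ k, |z k - p k| < ε := fun k => by
    rw [← Real.dist_eq]; exact (dist_le_pi_dist z p k).trans_lt hz
  have H := fun k => coord (k := k) (hlt k) (hp.1 k) (hp.2 k) (hε k).1 (hε k).2 (hzk k)
    (tb lo hi p k) rfl
  constructor
  · constructor
    · intro h
      have : ∀ k, ∃ b, (tb lo hi p k = none ∨ tb lo hi p k = some b) ∧
          0 ≤ sg (k, b) * (z k - p k) := fun k => (H k).1.1 ⟨h.1 k, h.2 k⟩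
      choose s hs1 hs2 using this
      exact ⟨s, by simpa [pat] using hs1, hs2⟩
    · rintro ⟨s, hs, hzs⟩
      have hs' : ∀ k, tb lo hi p k = none ∨ tb lo hi p k = some (s k) := by simpa [pat] using hs
      have := fun k => (H k).1.2 ⟨s k, hs' k, hzs k⟩
      exact ⟨fun k => (this k).1, fun k => (this k).2⟩
  · constructor
    · intro h s hs
      simp only [pat, decide_eq_true_eq]
      intro k
      exact (H k).2.1 (h k) (s k) (hs k)
    · intro h k
      refine (H k).2.2 fun b hb => ?_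
      choose s hs using fun l => exists_compat l (z l - p l)
      have := h (update s k b) (by
        intro l
        by_cases hl : l = k
        · subst hl; rw [update_self]; exact hb
        · rw [update_of_ne hl]; exact hs l)
      simp only [pat, decide_eq_true_eq] at this
      have := this k
      rwa [update_self] at this

theorem tb_ne {lo hi p : V} (hp : p ∈ Icc lo hi) (h : ¬ ∀ k, lo k < p k ∧ p k < hi k) :
    ∃ k, tb lo hi p k ≠ none := by
  by_contra hc
  push Not at hc
  apply h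
  intro k
  have := hc k
  unfold tb at this
  split_ifs at this with h1 h2
  exact ⟨lt_of_le_of_ne (hp.1 k) (Ne.symm h1), lt_of_le_of_ne (hp.2 k) h2⟩

variable {ι : Type*}

theorem exists_small {lo hi p : V} (hp : p ∈ Icc lo hi) : ∃ ε > 0, Small lo hi p ε := by
  have : ∀ k, ∃ ε > 0, (p k ≠ lo k → ε ≤ p k - lo k) ∧ (p k ≠ hi k → ε ≤ hi k - p k) := by
    intro k
    have h1 := hp.1 k
    have h2 := hp.2 k
    by_cases hl : p k = lo k
    · by_cases hh : p k = hi k
      · exact ⟨1, one_pos, fun h => absurd hl h, fun h => absurd hh h⟩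
      · exact ⟨hi k - p k, sub_pos.2 (lt_of_le_of_ne h2 hh), fun h => absurd hl h,
          fun _ => le_refl _⟩
    · by_cases hh : p k = hi k
      · exact ⟨p k - lo k, sub_pos.2 (lt_of_le_of_ne h1 (Ne.symm hl)), fun _ => le_refl _,
          fun h => absurd hh h⟩
      · exact ⟨min (p k - lo k) (hi k - p k), lt_min (sub_pos.2 (lt_of_le_of_ne h1 (Ne.symm hl)))
          (sub_pos.2 (lt_of_le_of_ne h2 hh)), fun _ => min_le_left _ _, fun _ => min_le_right _ _⟩
  choose ε hε h using this
  refine ⟨min (ε 0) (min (ε 1) (ε 2)), lt_min (hε 0) (lt_min (hε 1) (hε 2)), fun k => ?_⟩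
  have hk : min (ε 0) (min (ε 1) (ε 2)) ≤ ε k := by
    fin_cases k
    · exact min_le_left _ _
    · exact (min_le_right _ _).trans (min_le_left _ _)
    · exact (min_le_right _ _).trans (min_le_right _ _)
  exact ⟨fun hn => hk.trans ((h k).1 hn), fun hn => hk.trans ((h k).2 hn)⟩

theorem Small.mono {lo hi p : V} {ε ε' : ℝ} (h : Small lo hi p ε) (hε : ε' ≤ ε) :
    Small lo hi p ε' := fun k => ⟨fun hn => hε.trans ((h k).1 hn), fun hn => hε.trans ((h k).2 hn)⟩

theorem exists_eps {lo hi : ι → V} {p : V}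
    (hlf : ∃ U ∈ 𝓝 p, {j | (Icc (lo j) (hi j) ∩ U).Nonempty}.Finite) :
    ∃ ε > 0, (∀ j, p ∉ Icc (lo j) (hi j) → ∀ z, dist z p < ε → z ∉ Icc (lo j) (hi j)) ∧
      ∀ j, p ∈ Icc (lo j) (hi j) → Small (lo j) (hi j) p ε := by
  obtain ⟨U, hU, hfin⟩ := hlf
  have h1 : ∀ j, ∃ ε > 0, (p ∉ Icc (lo j) (hi j) → ∀ z, dist z p < ε → z ∉ Icc (lo j) (hi j)) ∧
      (p ∈ Icc (lo j) (hi j) → Small (lo j) (hi j) p ε) := by
    intro j
    by_cases hp : p ∈ Icc (lo j) (hi j)
    · obtain ⟨ε, hε, h⟩ := exists_small hp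
      exact ⟨ε, hε, fun h => absurd hp h, fun _ => h⟩
    · obtain ⟨ε, hε, h⟩ := Metric.isOpen_iff.1 isClosed_Icc.isOpen_compl p hp
      exact ⟨ε, hε, fun _ z hz => h hz, fun h => absurd h hp⟩
  choose e he h2 h3 using h1
  have h4 : ∀ᶠ ε in 𝓝[>] (0:ℝ), ∀ j ∈ {j | (Icc (lo j) (hi j) ∩ U).Nonempty}, ε ≤ e j := by
    rw [eventually_all_finite hfin]
    intro j _
    filter_upwards [Ioc_mem_nhdsGT (he j)] with ε hε using hε.2
  obtain ⟨r, hr, hrU⟩ := Metric.mem_nhds_iff.1 hU
  have h5 : ∀ᶠ ε in 𝓝[>] (0:ℝ), 0 < ε ∧ ε ≤ r := Ioc_mem_nhdsGT hr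
  obtain ⟨ε, hε1, hε2, hε3⟩ := (h4.and h5).exists
  refine ⟨ε, hε2, fun j hj z hz hzj => ?_, fun j hj => ?_⟩
  · have hjU : j ∈ {j | (Icc (lo j) (hi j) ∩ U).Nonempty} :=
      ⟨z, hzj, hrU (hz.trans_le hε3)⟩
    exact h2 j hj z (hz.trans_le (hε1 j hjU)) hzj
  · have hjU : j ∈ {j | (Icc (lo j) (hi j) ∩ U).Nonempty} := ⟨p, hj, mem_of_mem_nhds hU⟩
    exact (h3 j hj).mono (hε1 j hjU)

/-- the union of closed boxes minus the union of open boxes -/
def Fr (lo hi : ι → V) : Set V :=
  {z | (∃ j, z ∈ Icc (lo j) (hi j)) ∧ ∀ j, ¬ ∀ k, lo j k < z k ∧ z k < hi j k}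

theorem Qr_ne {occ : (Fin 3 → Bool) → Bool} {h h' : HA} (hQ : Qr occ h h' = true) :
    h.1 ≠ h'.1 := by
  unfold Qr at hQ
  simp only [ne_eq, decide_not, Bool.and_eq_true, Bool.not_eq_eq_eq_not, Bool.not_true,
    decide_eq_false_iff_not, bne_iff_ne] at hQ
  exact hQ.1

/-- the local structure from an occupation function -/
theorem near_of {lo hi : ι → V} {p : V} {ε : ℝ} (hlt : ∀ j k, lo j k < hi j k)
    (h1 : ∀ j, p ∉ Icc (lo j) (hi j) → ∀ z, dist z p < ε → z ∉ Icc (lo j) (hi j))
    (h2 : ∀ j, p ∈ Icc (lo j) (hi j) → Small (lo j) (hi j) p ε)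
    (occ : (Fin 3 → Bool) → Bool) (hcyc : IsCyc (fun h h' => Qr occ h h' = true))
    (ho1 : ∀ s, occ s = true ↔ ∃ j, p ∈ Icc (lo j) (hi j) ∧ pat (tb (lo j) (hi j) p) s = true)
    (ho2 : ∀ z, (∀ j, p ∈ Icc (lo j) (hi j) →
      ∃ s, z ∈ oct p s ∧ pat (tb (lo j) (hi j) p) s = false) →
      ∃ s, z ∈ oct p s ∧ ∀ j, p ∈ Icc (lo j) (hi j) → pat (tb (lo j) (hi j) p) s = false) :
    NearCyc (Fr lo hi) p ε (fun h h' => Qr occ h h' = true) := by
  refine ⟨hcyc, fun h h' hQ => Qr_ne hQ, fun z hz => ?_⟩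
  rw [← oct_iff]
  have hb := fun j (hj : p ∈ Icc (lo j) (hi j)) => box_iff (hlt j) hj (h2 j hj) hz
  constructor
  · rintro ⟨⟨i, hi'⟩, hn⟩
    have hpi : p ∈ Icc (lo i) (hi i) := by
      by_contra hc
      exact h1 i hc z hz hi'
    obtain ⟨s, hs, hzs⟩ := (hb i hpi).1.1 hi'
    obtain ⟨s', hzs', hs'⟩ := ho2 z (by
      intro j hj
      have := hn j
      rw [(hb j hj).2] at this
      push Not at this
      obtain ⟨s', hzs', hs'⟩ := this
      exact ⟨s', hzs', by simpa using hs'⟩)
    refine ⟨s, s', (ho1 s).2 ⟨i, hpi, hs⟩, ?_, hzs, hzs'⟩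
    by_contra hc
    simp only [Bool.not_eq_false] at hc
    obtain ⟨j, hj, hjs⟩ := (ho1 s').1 hc
    rw [hs' j hj] at hjs
    exact Bool.false_ne_true hjs
  · rintro ⟨s, s', hs, hs', hzs, hzs'⟩
    obtain ⟨j, hj, hjs⟩ := (ho1 s).1 hs
    refine ⟨⟨j, (hb j hj).1.2 ⟨s, hjs, hzs⟩⟩, fun i hopen => ?_⟩
    have hii : z ∈ Icc (lo i) (hi i) := ⟨fun k => (hopen k).1.le, fun k => (hopen k).2.le⟩
    have hpi : p ∈ Icc (lo i) (hi i) := by
      by_contra hc
      exact h1 i hc z hz hii
    have h3 := (hb i hpi).2.1 hopen s' hzs'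
    have h4 := (ho1 s').2 ⟨i, hpi, h3⟩
    rw [hs'] at h4
    exact Bool.false_ne_true h4

theorem near_one {lo hi : ι → V} (hlt : ∀ j k, lo j k < hi j k) {p : V} (hp : p ∈ Fr lo hi)
    (hlf : ∃ U ∈ 𝓝 p, {j | (Icc (lo j) (hi j) ∩ U).Nonempty}.Finite) {j : ι}
    (hj : p ∈ Icc (lo j) (hi j)) (hone : ∀ i, p ∈ Icc (lo i) (hi i) → i = j) :
    ∃ ε > 0, ∃ Q, NearCyc (Fr lo hi) p ε Q := by
  obtain ⟨ε, hε, h1, h2⟩ := exists_eps hlf
  refine ⟨ε, hε, _, near_of hlt h1 h2 (pat (tb (lo j) (hi j) p))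
    (isCyc_pat _ (tb_ne hj (hp.2 j))) (fun s => ⟨fun h => ⟨j, hj, h⟩, ?_⟩) (fun z h => ?_)⟩
  · rintro ⟨i, hi1, hi2⟩
    rwa [hone i hi1] at hi2
  · obtain ⟨s, hs, h3⟩ := h j hj
    refine ⟨s, hs, fun i hi' => ?_⟩
    rw [hone i hi']; exact h3

theorem near_two {lo hi : ι → V} (hlt : ∀ j k, lo j k < hi j k) {p : V} (hp : p ∈ Fr lo hi)
    (hlf : ∃ U ∈ 𝓝 p, {j | (Icc (lo j) (hi j) ∩ U).Nonempty}.Finite) {j j' : ι}
    (hj : p ∈ Icc (lo j) (hi j)) (hj' : p ∈ Icc (lo j') (hi j'))
    (hone : ∀ i, p ∈ Icc (lo i) (hi i) → i = j ∨ i = j') (k : Fin 3)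
    (hk : ∀ l, l ≠ k → lo j l < p l ∧ p l < hi j l) (hk' : lo j' k < p k ∧ p k < hi j' k) :
    ∃ ε > 0, ∃ Q, NearCyc (Fr lo hi) p ε Q := by
  obtain ⟨ε, hε, h1, h2⟩ := exists_eps hlf
  have ht' : tb (lo j') (hi j') p k = none := by
    unfold tb
    rw [if_neg hk'.1.ne', if_neg hk'.2.ne]
  obtain ⟨l, hl⟩ := tb_ne hj (hp.2 j)
  have hl0 : ∀ l, l ≠ k → tb (lo j) (hi j) p l = none := by
    intro l hlk
    unfold tb
    rw [if_neg (hk l hlk).1.ne', if_neg (hk l hlk).2.ne]
  have hlk : l = k := by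
    by_contra hc
    exact hl (hl0 l hc)
  subst hlk
  obtain ⟨d, hd⟩ := Option.ne_none_iff_exists'.1 hl
  have ht : tb (lo j) (hi j) p = fun m => if m = l then some d else none := by
    funext m
    split_ifs with hm
    · rw [hm, hd]
    · exact hl0 m hm
  refine ⟨ε, hε, _, near_of hlt h1 h2
    (fun s => pat (fun m => if m = l then some d else none) s || pat (tb (lo j') (hi j') p) s)
    (isCyc_pat2 l d _ ht' (tb_ne hj' (hp.2 j'))) (fun s => ?_) (fun z h => ?_)⟩
  · rw [Bool.or_eq_true, ← ht]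
    constructor
    · rintro (h | h)
      · exact ⟨j, hj, h⟩
      · exact ⟨j', hj', h⟩
    · rintro ⟨i, hi1, hi2⟩
      rcases hone i hi1 with rfl | rfl
      · exact Or.inl hi2
      · exact Or.inr hi2
  · obtain ⟨s, hs, h3⟩ := h j hj
    obtain ⟨s', hs', h3'⟩ := h j' hj'
    have hsl : s l ≠ d := by
      intro hsl
      rw [ht] at h3
      simp only [pat, decide_eq_false_iff_not] at h3
      apply h3
      intro m
      by_cases hm : m = l
      · right; rw [if_pos hm, hm, hsl]
      · left; rw [if_neg hm]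
    refine ⟨update s' l (s l), ?_, fun i hi' => ?_⟩
    · intro m
      by_cases hm : m = l
      · subst hm; rw [update_self]; exact hs m
      · rw [update_of_ne hm]; exact hs' m
    · rcases hone i hi' with rfl | rfl
      · rw [ht]
        simp only [pat, decide_eq_false_iff_not]
        intro h4
        have := h4 l
        rw [update_self, if_pos rfl] at this
        rcases this with h5 | h5
        · exact absurd h5 (by simp)
        · exact hsl (Option.some.inj h5).symm
      · simp only [pat, decide_eq_false_iff_not] at h3' ⊢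
        intro h4
        apply h3'
        intro m
        by_cases hm : m = l
        · subst hm; exact Or.inl ht'
        · have := h4 m
          rwa [update_of_ne hm] at this

/-! ### application to the handle model -/

variable {Λ : Set V} {v : V} {K : BoxCx Λ v} (s : K.Sizes) (c : ℝ)

/-- lower corners -/
def blo : K.W ⊕ K.G → V
  | .inl i => fun k => K.w i k - c * s.r i
  | .inr e => fun k => K.w (K.a e) k - c * s.q e

/-- upper corners -/
def bhi : K.W ⊕ K.G → V
  | .inl i => fun k => K.w i k + c * s.r i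
  | .inr e => fun k => K.w (K.b e) k + c * s.q e

theorem r_pos (i : K.W) : 0 < s.r i := by
  obtain ⟨n, hn⟩ := s.r_dy i
  rw [hn]; positivity

theorem q_pos (e : K.G) : 0 < s.q e := by
  obtain ⟨n, hn⟩ := s.q_dy e
  rw [hn]; positivity

theorem ab_le (e : K.G) (k : Fin 3) : K.w (K.a e) k ≤ K.w (K.b e) k := by
  by_cases h : k = K.dir e
  · rw [h]; exact (K.ab_dir e).le
  · exact (K.ab_off e k h).le

theorem mem_cb {x y : V} {r : ℝ} (hr : 0 ≤ r) :
    x ∈ closedBall y r ↔ ∀ k, y k - r ≤ x k ∧ x k ≤ y k + r := by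
  rw [mem_closedBall, dist_pi_le_iff hr]
  refine forall_congr' fun k => ?_
  rw [Real.dist_eq, abs_le]
  constructor <;> rintro ⟨h1, h2⟩ <;> constructor <;> linarith

theorem mem_ob {x y : V} {r : ℝ} (hr : 0 < r) :
    x ∈ ball y r ↔ ∀ k, y k - r < x k ∧ x k < y k + r := by
  rw [mem_ball, dist_pi_lt_iff hr]
  refine forall_congr' fun k => ?_
  rw [Real.dist_eq, abs_lt]
  constructor <;> rintro ⟨h1, h2⟩ <;> constructor <;> linarith

variable {c}

theorem icc_inl (hc : 0 < c) (i : K.W) :
    Icc (blo s c (.inl i)) (bhi s c (.inl i)) = s.box c i := by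
  ext x
  have h := r_pos s i
  unfold BoxCx.Sizes.box
  rw [mem_cb (by positivity)]
  exact ⟨fun h k => ⟨h.1 k, h.2 k⟩, fun h => ⟨fun k => (h k).1, fun k => (h k).2⟩⟩

theorem icc_inr (e : K.G) : Icc (blo s c (.inr e)) (bhi s c (.inr e)) = s.beam c e := by
  ext x
  exact ⟨fun h k => ⟨h.1 k, h.2 k⟩, fun h => ⟨fun k => (h k).1, fun k => (h k).2⟩⟩

theorem F_eq (hc : 0 < c) : s.F c = Fr (blo s c) (bhi s c) := by
  ext x
  unfold BoxCx.Sizes.F BoxCx.Sizes.H BoxCx.Sizes.Hin Fr
  simp only [Set.mem_sdiff, mem_union, mem_iUnion, mem_ofPred_eq, Sum.exists, Sum.forall, not_or,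
    not_exists, icc_inl s hc, icc_inr s]
  refine and_congr Iff.rfl (and_congr (forall_congr' fun i => not_congr ?_)
    (forall_congr' fun e => not_congr ?_))
  · have h := r_pos s i
    exact mem_ob (by positivity)
  · exact Iff.rfl

theorem blo_lt (hc : 0 < c) (j : K.W ⊕ K.G) (k : Fin 3) : blo s c j k < bhi s c j k := by
  rcases j with i | e
  · have h : 0 < c * s.r i := mul_pos hc (r_pos s i)
    show K.w i k - c * s.r i < K.w i k + c * s.r i
    linarith
  · have h : 0 < c * s.q e := mul_pos hc (q_pos s e)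
    have := ab_le e k
    show K.w (K.a e) k - c * s.q e < K.w (K.b e) k + c * s.q e
    linarith

theorem box_sub2 (hc : c ≤ 2) (i : K.W) : s.box c i ⊆ closedBall (K.w i) (2 * s.r i) :=
  closedBall_subset_closedBall (mul_le_mul_of_nonneg_right hc (r_pos s i).le)

theorem beam_sub2 (hc : c ≤ 2) (e : K.G) : s.beam c e ⊆ K.nb e (2 * s.q e) := by
  intro x hx k
  have h1 := hx k
  have h2 : c * s.q e ≤ 2 * s.q e := mul_le_mul_of_nonneg_right hc (q_pos s e).le
  constructor <;> linarith [h1.1, h1.2]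

theorem lf_all (hc0 : 0 < c) (hc : c ≤ 2) {p : V} (hp : p ∈ Λ) :
    ∃ U ∈ 𝓝 p, {j : K.W ⊕ K.G | (Icc (blo s c j) (bhi s c j) ∩ U).Nonempty}.Finite := by
  obtain ⟨U, hU, hf⟩ := s.lfU p hp
  obtain ⟨U', hU', hf'⟩ := s.lfTube p hp
  refine ⟨U ∩ U', inter_mem hU hU', ((hf.image Sum.inl).union (hf'.image Sum.inr)).subset ?_⟩
  rintro (i | e) ⟨x, hx, hxU, hxU'⟩
  · left
    rw [icc_inl s hc0] at hx
    exact ⟨i, ⟨x, box_sub2 s hc i hx, hxU⟩, rfl⟩
  · right
    rw [icc_inr s] at hx
    exact ⟨e, ⟨x, beam_sub2 s hc e hx, hxU'⟩, rfl⟩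

/-- the local structure of `F` at a point of a cube and an incident beam -/
theorem two_aux (h0 : 1 / 2 < c) (h1 : c < 1) {p : V} {i : K.W} {e : K.G} (hpi : p ∈ s.box c i)
    (hpe : p ∈ s.beam c e) (hni : p ∉ ball (K.w i) (c * s.r i)) (hie : i = K.a e ∨ i = K.b e) :
    (∀ l, l ≠ K.dir e → blo s c (.inl i) l < p l ∧ p l < bhi s c (.inl i) l) ∧
      blo s c (.inr e) (K.dir e) < p (K.dir e) ∧ p (K.dir e) < bhi s c (.inr e) (K.dir e) := by
  have hq := q_pos s e
  have hra := r_pos s (K.a e)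
  have hrb := r_pos s (K.b e)
  have hle := s.q_le e
  have hri := r_pos s i
  have hi8 : 8 * s.q e ≤ s.r i := by
    rcases hie with rfl | rfl
    · exact hle.1
    · exact hle.2
  have hcr : 0 < c * s.r i := mul_pos (by linarith) hri
  have hcq : c * s.q e < c * s.r i := mul_lt_mul_of_pos_left (by linarith) (by linarith)
  have hpi' := (mem_cb hcr.le).1 hpi
  have hw : ∀ l, l ≠ K.dir e → K.w (K.a e) l = K.w i l ∧ K.w (K.b e) l = K.w i l := by
    intro l hl
    have := K.ab_off e l hl
    rcases hie with rfl | rfl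
    · exact ⟨rfl, this.symm⟩
    · exact ⟨this, rfl⟩
  have hoff : ∀ l, l ≠ K.dir e → K.w i l - c * s.r i < p l ∧ p l < K.w i l + c * s.r i := by
    intro l hl
    obtain ⟨e1, e2⟩ := hw l hl
    have h3 := hpe l
    rw [e1, e2] at h3
    constructor <;> linarith [h3.1, h3.2]
  refine ⟨hoff, ?_⟩
  -- the direction of the edge
  have hdir : p (K.dir e) = K.w i (K.dir e) - c * s.r i ∨
      p (K.dir e) = K.w i (K.dir e) + c * s.r i := by
    by_contra hcon
    push Not at hcon
    apply hni
    rw [mem_ob hcr]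
    intro k
    by_cases hk : k = K.dir e
    · rw [hk]
      exact ⟨lt_of_le_of_ne (hpi' _).1 (Ne.symm hcon.1), lt_of_le_of_ne (hpi' _).2 hcon.2⟩
    · exact hoff k hk
  have hpd := hpe (K.dir e)
  -- the two cubes are disjoint
  have hab : K.w (K.a e) (K.dir e) + 2 * s.r (K.a e) < K.w (K.b e) (K.dir e) - 2 * s.r (K.b e) := by
    by_contra hcon
    push Not at hcon
    have hne : K.a e ≠ K.b e := by
      intro h
      have := K.ab_dir e
      rw [h] at this
      exact lt_irrefl _ this
    have hd := s.U_disj _ _ hne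
    have hlt := K.ab_dir e
    set A := K.w (K.a e) (K.dir e) with hA
    set B := K.w (K.b e) (K.dir e) with hB
    rw [Set.disjoint_left] at hd
    refine hd (a := update (K.w (K.a e)) (K.dir e) (max A (B - 2 * s.r (K.b e)))) ?_ ?_
    · rw [mem_cb (by positivity)]
      intro k
      by_cases hk : k = K.dir e
      · subst hk
        rw [update_self]
        refine ⟨(by linarith : A - 2 * s.r (K.a e) ≤ A).trans (le_max_left _ _),
          max_le (by linarith) hcon⟩
      · rw [update_of_ne hk]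
        constructor <;> linarith
    · rw [mem_cb (by positivity)]
      intro k
      by_cases hk : k = K.dir e
      · subst hk
        rw [update_self]
        exact ⟨le_max_right _ _, max_le (by linarith) (by linarith)⟩
      · rw [update_of_ne hk, K.ab_off e k hk]
        constructor <;> linarith
  have hca : c * s.r (K.a e) < s.r (K.a e) := by nlinarith
  have hcb : c * s.r (K.b e) < s.r (K.b e) := by nlinarith
  have hcq' : 0 < c * s.q e := mul_pos (by linarith) hq
  have hca2 : s.q e < c * s.r (K.a e) := by nlinarith [hle.1]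
  have hcb2 : s.q e < c * s.r (K.b e) := by nlinarith [hle.2]
  have hcq2 : c * s.q e < s.q e := by nlinarith
  show K.w (K.a e) (K.dir e) - c * s.q e < p (K.dir e) ∧
    p (K.dir e) < K.w (K.b e) (K.dir e) + c * s.q e
  rcases hie with rfl | rfl
  · rcases hdir with h | h
    · exfalso
      rw [h] at hpd
      linarith [hpd.1]
    · rw [h]
      constructor <;> linarith
  · rcases hdir with h | h
    · rw [h]
      constructor <;> linarith
    · exfalso
      rw [h] at hpd
      linarith [hpd.2]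

/-- **TM-F**: the surface `F c` is rectilinear -/
theorem rectLocal_F (hc : c ∈ Ioo (1/2:ℝ) 1) : RectLocal (s.F c) := by
  obtain ⟨h0, h1⟩ := hc
  have hc0 : 0 < c := by linarith
  have hc2 : c ≤ 2 := by linarith
  have hFeq := F_eq s hc0
  intro p hp
  have hpF : p ∈ Fr (blo s c) (bhi s c) := by rw [← hFeq]; exact hp
  rw [hFeq]
  have hnb : ∀ i, p ∉ ball (K.w i) (c * s.r i) := fun i h => hp.2 (Or.inl (mem_iUnion.2 ⟨i, h⟩))
  have hnb2 : ∀ i, p ∉ ball (K.w i) (s.r i / 2) := fun i h =>
    hnb i (ball_subset_ball (by have := r_pos s i; nlinarith) h)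
  have hpΛ : p ∈ Λ := by
    rcases hp.1 with h | h
    · obtain ⟨i, hi⟩ := mem_iUnion.1 h
      exact s.U_sub i (box_sub2 s hc2 i hi)
    · obtain ⟨e, he⟩ := mem_iUnion.1 h
      exact s.tube_sub e (beam_sub2 s hc2 e he)
  have hlf := lf_all s hc0 hc2 hpΛ
  have hlt := blo_lt s hc0
  have hWW : ∀ i i', p ∈ s.box c i → p ∈ s.box c i' → i = i' := by
    intro i i' hi hi'
    by_contra hne
    exact (s.U_disj i i' hne).le_bot ⟨box_sub2 s hc2 i hi, box_sub2 s hc2 i' hi'⟩
  have hGG : ∀ e e', p ∈ s.beam c e → p ∈ s.beam c e' → e = e' := by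
    intro e e' he he'
    by_contra hne
    obtain ⟨i, _, _, hi⟩ := s.tube_disj e e' hne p (beam_sub2 s hc2 e he) (beam_sub2 s hc2 e' he')
    exact hnb2 i hi
  by_cases hW : ∃ i, p ∈ s.box c i
  · obtain ⟨i, hi⟩ := hW
    have hi' : p ∈ Icc (blo s c (.inl i)) (bhi s c (.inl i)) := by rw [icc_inl s hc0]; exact hi
    by_cases hG : ∃ e, p ∈ s.beam c e
    · obtain ⟨e, he⟩ := hG
      have he' : p ∈ Icc (blo s c (.inr e)) (bhi s c (.inr e)) := by rw [icc_inr s]; exact he
      have hie := s.U_edge i e p (box_sub2 s hc2 i hi) (beam_sub2 s hc2 e he)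
      obtain ⟨t1, t2⟩ := two_aux s h0 h1 hi he (hnb i) hie
      refine near_two hlt hpF hlf hi' he' ?_ (K.dir e) t1 t2
      rintro (j | j) hj
      · left
        rw [icc_inl s hc0] at hj
        rw [hWW i j hi hj]
      · right
        rw [icc_inr s] at hj
        rw [hGG e j he hj]
    · refine near_one hlt hpF hlf hi' ?_
      rintro (j | j) hj
      · rw [icc_inl s hc0] at hj
        rw [hWW i j hi hj]
      · rw [icc_inr s] at hj
        exact absurd ⟨j, hj⟩ hG
  · have : ∃ e, p ∈ s.beam c e := by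
      rcases hp.1 with h | h
      · exact absurd (mem_iUnion.1 h) hW
      · exact mem_iUnion.1 h
    obtain ⟨e, he⟩ := this
    have he' : p ∈ Icc (blo s c (.inr e)) (bhi s c (.inr e)) := by rw [icc_inr s]; exact he
    refine near_one hlt hpF hlf he' ?_
    rintro (j | j) hj
    · rw [icc_inl s hc0] at hj
      exact absurd ⟨j, hj⟩ hW
    · rw [icc_inr s] at hj
      rw [hGG e j he hj]

end P073.PW86
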